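import Mathlib

/-!
Dense graphs with bounded degree without short non-backtracking repetitions.
-/

namespace Vale.Agent.P090

open Finset

variable {n : ℕ}

/-- Number of neighbours. -/
noncomputable def deg {V : Type*} [Fintype V] (G : SimpleGraph V) (x : V) : ℕ := by
  classical exact (Finset.univ.filter fun y => G.Adj x y).card

/-- Non-backtracking sequences with at most g steps never repeat a vertex. -/
def NoShort {V : Type*} (G : SimpleGraph V) (g : ℕ) : Prop :=
  ∀ (len : ℕ) (p : ℕ → V), len ≤ g → (∀ i < len, G.Adj (p i) (p (i + 1))) →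
    (∀ i, i + 2 ≤ len → p (i + 2) ≠ p i) →
    ∀ i ≤ len, ∀ j ≤ len, p i = p j → i = j

/-- The set of vertices reached by at most k steps. -/
noncomputable def ball {V : Type*} [Fintype V] (G : SimpleGraph V) (x : V) : ℕ → Finset V
  | 0 => {x}
  | k + 1 => by classical exact ball G x k ∪ (ball G x k).biUnion (fun u => Finset.univ.filter fun w => G.Adj u w)

lemma ball_card {V : Type*} [Fintype V] (G : SimpleGraph V)
    {D : ℕ} (hD : ∀ u, deg G u ≤ D) (x : V) (k : ℕ) : (ball G x k).card ≤ (D + 1) ^ k := by
  classical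
  induction k with
  | zero => simp [ball]
  | succ k ih =>
    simp only [ball]
    refine le_trans (card_union_le _ _) (le_trans (Nat.add_le_add le_rfl
      (card_biUnion_le_card_mul _ _ D (fun u _ => ?_))) ?_)
    · exact le_trans (le_of_eq (by simp [deg])) (hD u)
    · calc _ = (ball G x k).card * (D + 1) := by ring
        _ ≤ (D + 1) ^ k * (D + 1) := Nat.mul_le_mul_right _ ih
        _ = _ := by ring

lemma mem_ball_of_seq {V : Type*} [Fintype V] (G : SimpleGraph V) {len : ℕ} (p : ℕ → V)
    (h : ∀ i < len, G.Adj (p i) (p (i + 1))) : ∀ k, len ≤ k → p len ∈ ball G (p 0) k := by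
  classical
  induction len with
  | zero =>
    intro k _
    induction k with
    | zero => simp [ball]
    | succ k ih => simp only [ball]; exact mem_union_left _ (ih (Nat.zero_le _))
  | succ len ih =>
    intro k hk
    obtain ⟨k, rfl⟩ : ∃ k', k = k' + 1 := ⟨k - 1, by omega⟩
    simp only [ball]
    refine mem_union_right _ (mem_biUnion.2 ⟨p len, ?_, ?_⟩)
    · exact ih (fun i hi => h i (by omega)) k (by omega)
    · simpa using h len (by omega)

lemma noShort_bot {V : Type*} (g : ℕ) : NoShort (⊥ : SimpleGraph V) g := by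
  intro len p _ hadj _ i hi j hj _
  rcases Nat.eq_zero_or_pos len with h | h
  · omega
  · exact absurd (hadj 0 h) (by simp)

lemma noShort_sup_edge {V : Type*} [Fintype V] {G : SimpleGraph V} {g : ℕ} (hG : NoShort G g)
    {u v : V} (hfar : v ∉ ball G u g) (hfar' : u ∉ ball G v g) :
    NoShort (G ⊔ SimpleGraph.edge u v) g := by
  classical
  intro len p hlen hadj hnb i hi j hj hij
  by_contra hne
  wlog hlt : i < j generalizing i j
  · exact this j hj i hi hij.symm (Ne.symm hne) (by omega)
  -- a shortest repetition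
  have hex : ∃ ℓ, 0 < ℓ ∧ ∃ a, a + ℓ ≤ len ∧ p a = p (a + ℓ) :=
    ⟨j - i, by omega, i, by omega, by rw [Nat.add_sub_cancel' hlt.le]; exact hij⟩
  set ℓ := Nat.find hex with hℓ
  obtain ⟨hℓpos, a, hal, hpa⟩ := Nat.find_spec hex
  rw [← hℓ] at hℓpos hal hpa
  have hinj : ∀ r < ℓ, ∀ r' < ℓ, p (a + r) = p (a + r') → r = r' := by
    intro r hr r' hr' he
    by_contra hrr
    wlog h : r < r' generalizing r r'
    · exact this r' hr' r hr he.symm (Ne.symm hrr) (by omega)
    have := Nat.find_min' hex (m := r' - r) ⟨by omega, a + r, by omega, by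
      rw [he]; congr 1; omega⟩
    omega
  have hℓ3 : 3 ≤ ℓ := by
    by_contra h
    interval_cases hh : ℓ
    · exact (hadj a (by omega)).ne hpa
    · exact hnb a (by omega) hpa.symm
  have hstep : ∀ r < ℓ, (G ⊔ SimpleGraph.edge u v).Adj (p (a + r)) (p (a + (r + 1) % ℓ)) := by
    intro r hr
    rcases Nat.lt_or_ge (r + 1) ℓ with h | h
    · rw [Nat.mod_eq_of_lt h]
      exact hadj (a + r) (by omega)
    · have h1 : r + 1 = ℓ := by omega
      rw [h1, Nat.mod_self, add_zero, hpa, ← h1]
      exact hadj (a + r) (by omega)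
  by_cases hold : ∀ r < ℓ, G.Adj (p (a + r)) (p (a + (r + 1) % ℓ))
  · -- a short cycle in the old graph
    have := hG ℓ (fun r => p (a + r)) (by omega)
      (fun r hr => by
        have := hold r hr
        rcases Nat.lt_or_ge (r + 1) ℓ with h | h
        · rwa [Nat.mod_eq_of_lt h] at this
        · have h1 : r + 1 = ℓ := by omega
          rw [h1, Nat.mod_self, add_zero, hpa] at this
          rw [h1]; exact this)
      (fun r hr => by
        have := hnb (a + r) (by omega)
        simpa [add_assoc] using this)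
      0 (by omega) ℓ le_rfl (by simpa using hpa)
    omega
  push Not at hold
  obtain ⟨r, hr, hnew⟩ := hold
  have hr_edge : (p (a + r) = u ∧ p (a + (r + 1) % ℓ) = v) ∨
      (p (a + r) = v ∧ p (a + (r + 1) % ℓ) = u) := by
    have := hstep r hr
    simp only [SimpleGraph.sup_adj, SimpleGraph.edge_adj] at this
    rcases this with h | ⟨h, -⟩
    · exact absurd h hnew
    · tauto
  have hmod : ∀ x, x % ℓ < ℓ := fun x => Nat.mod_lt _ hℓpos
  have hothers : ∀ r' < ℓ, r' ≠ r → G.Adj (p (a + r')) (p (a + (r' + 1) % ℓ)) := by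
    intro r' hr' hne'
    by_contra hnew'
    have := hstep r' hr'
    simp only [SimpleGraph.sup_adj, SimpleGraph.edge_adj] at this
    rcases this with h | ⟨h, -⟩
    · exact hnew' h
    have hs : ∀ x < ℓ, ∀ y < ℓ, (x + 1) % ℓ = y → (y + 1) % ℓ = x → False := by
      intro x hx y hy h1 h2
      rcases Nat.lt_or_ge (x + 1) ℓ with h | h
      · rw [Nat.mod_eq_of_lt h] at h1
        rcases Nat.lt_or_ge (y + 1) ℓ with h' | h'
        · rw [Nat.mod_eq_of_lt h'] at h2; omega
        · rw [show y + 1 = ℓ by omega, Nat.mod_self] at h2; omega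
      · rw [show x + 1 = ℓ by omega, Nat.mod_self] at h1
        subst h1
        rw [Nat.mod_eq_of_lt (show 0 + 1 < ℓ by omega)] at h2
        omega
    rcases hr_edge with ⟨ha1, ha2⟩ | ⟨ha1, ha2⟩ <;> rcases h with ⟨hb1, hb2⟩ | ⟨hb1, hb2⟩
    · exact hne' (hinj r' hr' r hr (hb1.trans ha1.symm))
    · exact hs r hr r' hr' (hinj _ (hmod _) r' hr' (ha2.trans hb1.symm))
        (hinj _ (hmod _) r hr (hb2.trans ha1.symm))
    · exact hs r hr r' hr' (hinj _ (hmod _) r' hr' (ha2.trans hb1.symm))
        (hinj _ (hmod _) r hr (hb2.trans ha1.symm))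
    · exact hne' (hinj r' hr' r hr (hb1.trans ha1.symm))
  -- walk around the cycle
  have hseq := mem_ball_of_seq G (len := ℓ - 1) (fun k => p (a + (r + 1 + k) % ℓ))
    (fun k hk => by
      have h1 : ((r + 1 + k) % ℓ + 1) % ℓ = (r + 1 + (k + 1)) % ℓ := by
        rw [Nat.mod_add_mod]; congr 1
      have h2 : (r + 1 + k) % ℓ ≠ r := by
        intro h
        rcases Nat.lt_or_ge (r + 1 + k) ℓ with h' | h'
        · rw [Nat.mod_eq_of_lt h'] at h; omega
        · rw [Nat.mod_eq_sub_mod h', Nat.mod_eq_of_lt (by omega)] at h; omega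
      have := hothers _ (hmod (r + 1 + k)) h2
      rwa [h1] at this) g (by omega)
  have he : (r + 1 + (ℓ - 1)) % ℓ = r := by
    rw [show r + 1 + (ℓ - 1) = r + ℓ by omega, Nat.add_mod_right, Nat.mod_eq_of_lt hr]
  simp only [he, add_zero] at hseq
  rcases hr_edge with ⟨ha1, ha2⟩ | ⟨ha1, ha2⟩
  · rw [ha1, ha2] at hseq; exact hfar' hseq
  · rw [ha1, ha2] at hseq; exact hfar hseq

lemma ball_symm {V : Type*} [Fintype V] (G : SimpleGraph V) {x y : V} {g : ℕ}
    (h : y ∈ ball G x g) : x ∈ ball G y g := by
  classical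
  have key : ∀ k, ∀ z ∈ ball G x k, ∃ len, ∃ p : ℕ → V, len ≤ k ∧ p 0 = x ∧ p len = z ∧
      ∀ i < len, G.Adj (p i) (p (i + 1)) := by
    intro k
    induction k with
    | zero => intro z hz; simp [ball] at hz; exact ⟨0, fun _ => x, le_rfl, rfl, hz.symm, by omega⟩
    | succ k ih =>
      intro z hz
      simp only [ball, mem_union, mem_biUnion] at hz
      rcases hz with hz | ⟨w, hw, hwz⟩
      · obtain ⟨len, p, h1, h2⟩ := ih z hz
        exact ⟨len, p, by omega, h2⟩
      · obtain ⟨len, p, h1, h2, h3, h4⟩ := ih w hw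
        refine ⟨len + 1, fun i => if i ≤ len then p i else z, by omega, by simp [h2], by simp, ?_⟩
        intro i hi
        rcases Nat.lt_or_ge i len with h | h
        · simp [h.le, show i + 1 ≤ len by omega, h4 i h]
        · obtain rfl : i = len := by omega
          simpa [h3] using hwz
  obtain ⟨len, p, h1, h2, h3, h4⟩ := key g y h
  have := mem_ball_of_seq G (len := len) (fun i => p (len - i))
    (fun i hi => by
      have := h4 (len - (i + 1)) (by omega)
      rw [show len - (i + 1) + 1 = len - i by omega] at this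
      exact this.symm) g h1
  simpa [h2, h3] using this

/-- Existence of a dense bounded-degree graph without short repetitions. -/
theorem exists_noShort (D g : ℕ) (hg : 1 ≤ g) :
    ∃ G : SimpleGraph (Fin (2 * (D + 1) ^ g)), NoShort G g ∧
      (∀ x, deg G x ≤ D) ∧ (2 * (D + 1) ^ g) * D ≤ 2 * ∑ x, deg G x := by
  classical
  set N := 2 * (D + 1) ^ g with hN
  let good := (Finset.univ : Finset (SimpleGraph (Fin N))).filter
    (fun G => NoShort G g ∧ ∀ x, deg G x ≤ D)
  have hne : good.Nonempty :=
    ⟨⊥, mem_filter.2 ⟨mem_univ _, noShort_bot g, fun x => by simp [deg]⟩⟩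
  obtain ⟨G, hG, hmax⟩ := good.exists_max_image (fun G => G.edgeFinset.card) hne
  simp only [good, mem_filter, mem_univ, true_and] at hG
  have hdeg : ∀ x, deg G x ≤ D := hG.2
  refine ⟨G, hG.1, hdeg, ?_⟩
  set X := (Finset.univ : Finset (Fin N)).filter (fun x => deg G x < D) with hX
  have hXball : ∀ x ∈ X, X ⊆ ball G x g := by
    intro x hx y hy
    by_contra hfar
    simp only [hX, mem_filter, mem_univ, true_and] at hx hy
    have hself : x ∈ ball G x g := mem_ball_of_seq G (len := 0) (fun _ => x) (by omega) g (by omega)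
    have hxy : x ≠ y := fun h => hfar (h ▸ hself)
    have hnadj : ¬ G.Adj x y := fun h =>
      hfar (mem_ball_of_seq G (len := 1) (fun i => if i = 0 then x else y)
          (fun i hi => by
            obtain rfl : i = 0 := by omega
            simpa using h) g hg)
    have hfar' : x ∉ ball G y g := fun h => hfar (ball_symm G h)
    have hnew : G ⊔ SimpleGraph.edge x y ∈ good := by
      simp only [good, mem_filter, mem_univ, true_and]
      refine ⟨noShort_sup_edge hG.1 hfar hfar', fun z => ?_⟩
      have hsub : (univ.filter fun w => (G ⊔ SimpleGraph.edge x y).Adj z w) ⊆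
          (univ.filter fun w => G.Adj z w) ∪
          (if z = x then {y} else if z = y then {x} else ∅) := by
        intro w hw
        simp only [mem_filter, mem_univ, true_and, SimpleGraph.sup_adj, SimpleGraph.edge_adj] at hw
        rcases hw with hw | ⟨hw, -⟩
        · simp [hw]
        · rcases hw with ⟨rfl, rfl⟩ | ⟨rfl, rfl⟩ <;> simp [hxy.symm]
      refine le_trans (le_trans (le_of_eq (by simp [deg]))
        (le_trans (card_le_card hsub) (card_union_le _ _))) ?_
      have h1 : (univ.filter fun w => G.Adj z w).card = deg G z := by simp [deg]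
      rw [h1]
      split_ifs with h2 h3
      · subst h2; simp only [card_singleton]; omega
      · subst h3; simp only [card_singleton]; omega
      · simp only [card_empty, add_zero]; exact hdeg z
    have hlt : G.edgeFinset.card < (G ⊔ SimpleGraph.edge x y).edgeFinset.card := by
      apply card_lt_card
      rw [SimpleGraph.edgeFinset_ssubset_edgeFinset]
      exact SimpleGraph.lt_sup_edge G x y hxy hnadj
    have hm := hmax _ hnew
    refine absurd hm (not_le.2 ?_)
    refine lt_of_le_of_lt (le_of_eq ?_) (lt_of_lt_of_eq hlt ?_)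
    · congr 1
    · congr 1; ext; simp
  have hXcard : X.card ≤ (D + 1) ^ g := by
    rcases X.eq_empty_or_nonempty with h | ⟨x, hx⟩
    · simp [h]
    · exact le_trans (card_le_card (hXball x hx)) (ball_card G hdeg x g)
  have hsum : (univ \ X).card * D ≤ ∑ x, deg G x := by
    calc (univ \ X).card * D = ∑ x ∈ univ \ X, D := by simp
      _ ≤ ∑ x ∈ univ \ X, deg G x := sum_le_sum (fun x hx => by
          simp [hX] at hx; exact hx)
      _ ≤ _ := sum_le_sum_of_subset (subset_univ _)
  rw [card_univ_sdiff, Fintype.card_fin] at hsum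
  have : N ≤ 2 * (N - X.card) := by omega
  calc N * D ≤ 2 * (N - X.card) * D := Nat.mul_le_mul_right _ this
    _ ≤ _ := by linarith

end Vale.Agent.P090
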