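import Mathlib
import Vale.Agent.P090.Girth

/-!
Labelled bounded-degree graphs in which no long non-backtracking path matches a small template.
-/

namespace Vale.Agent.P090

open Finset
open scoped symmDiff

/-- Hamming distance of two subsets. -/
def hd {q : ℕ} (A B : Finset (Fin q)) : ℕ := (A ∆ B).card

lemma hd_comm {q : ℕ} (A B : Finset (Fin q)) : hd A B = hd B A := by rw [hd, hd, symmDiff_comm]

lemma hd_self {q : ℕ} (A : Finset (Fin q)) : hd A A = 0 := by simp [hd]

lemma hd_triangle {q : ℕ} (A B C : Finset (Fin q)) : hd A C ≤ hd A B + hd B C :=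
  le_trans (card_le_card (by
    intro x hx
    simp only [mem_symmDiff, mem_union] at hx ⊢
    tauto)) (card_union_le _ _)

lemma hd_le {q : ℕ} (A B : Finset (Fin q)) : hd A B ≤ q := by
  simpa [hd] using (A ∆ B).card_le_univ

/-- Blocks which can be explained by a template. -/
def badBlock {q : ℕ} (s : ℕ) (P : Finset (Fin q)) : Finset (Fin s → Fin q) :=
  univ.filter fun f => (∃ i j, i ≠ j ∧ f i = f j) ∨ (P.card < 2 * s ∧ ∃ i, f i ∈ P)

lemma card_coord {q s : ℕ} (i : Fin s) : Fintype.card ({j : Fin s // j ≠ i} → Fin q) = q ^ (s - 1) := by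
  simp [Fintype.card_subtype_compl]

lemma badBlock_card {q : ℕ} (s : ℕ) (P : Finset (Fin q)) :
    (badBlock s P).card ≤ 3 * s ^ 2 * q ^ (s - 1) := by
  classical
  have h1 : ∀ i j : Fin s, i ≠ j →
      (univ.filter fun f : Fin s → Fin q => f i = f j).card ≤ q ^ (s - 1) := by
    intro i j hij
    rw [← card_coord i, ← card_univ]
    refine card_le_card_of_injOn (fun f k => f k.1) (fun _ _ => mem_coe.2 (mem_univ _)) ?_
    intro f hf g hg h
    simp only [coe_filter, mem_univ, true_and, Set.mem_ofPred_eq] at hf hg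
    funext k
    by_cases hk : k = i
    · subst hk; rw [hf, hg]; exact congrFun h ⟨j, hij.symm⟩
    · exact congrFun h ⟨k, hk⟩
  have h2 : ∀ i : Fin s,
      (univ.filter fun f : Fin s → Fin q => f i ∈ P).card ≤ P.card * q ^ (s - 1) := by
    intro i
    rw [← card_coord i, ← card_univ, ← card_product]
    refine card_le_card_of_injOn (fun f => (f i, fun k => f k.1))
      (fun f hf => mem_coe.2 (mem_product.2 ⟨(mem_filter.1 (mem_coe.1 hf)).2, mem_univ _⟩)) ?_
    intro f _ g _ h
    simp only [Prod.mk.injEq] at h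
    funext k
    by_cases hk : k = i
    · subst hk; exact h.1
    · exact congrFun h.2 ⟨k, hk⟩
  have hsub : badBlock s P ⊆
      ((univ : Finset (Fin s × Fin s)).filter (fun p => p.1 ≠ p.2)).biUnion
        (fun p => univ.filter fun f : Fin s → Fin q => f p.1 = f p.2) ∪
      (if P.card < 2 * s then (univ : Finset (Fin s)).biUnion
        (fun i => univ.filter fun f : Fin s → Fin q => f i ∈ P) else ∅) := by
    intro f hf
    simp only [badBlock, mem_filter, mem_univ, true_and] at hf
    rcases hf with ⟨i, j, hij, h⟩ | ⟨hP, i, hi⟩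
    · exact mem_union_left _ (mem_biUnion.2 ⟨(i, j), by simp [hij], by simp [h]⟩)
    · rw [if_pos hP]
      exact mem_union_right _ (mem_biUnion.2 ⟨i, by simp, by simp [hi]⟩)
  refine le_trans (card_le_card hsub) (le_trans (card_union_le _ _) ?_)
  have e1 := card_biUnion_le_card_mul
    ((univ : Finset (Fin s × Fin s)).filter (fun p => p.1 ≠ p.2))
    (fun p => univ.filter fun f : Fin s → Fin q => f p.1 = f p.2) (q ^ (s - 1))
    (fun p hp => h1 p.1 p.2 (mem_filter.1 hp).2)
  have e2 : ((univ : Finset (Fin s × Fin s)).filter (fun p => p.1 ≠ p.2)).card ≤ s * s :=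
    le_trans (card_filter_le _ _) (by simp)
  have e1' : _ ≤ s * s * q ^ (s - 1) := le_trans e1 (Nat.mul_le_mul_right _ e2)
  refine le_trans (Nat.add_le_add e1' (?_ : _ ≤ 2 * s * s * q ^ (s - 1))) (le_of_eq (by ring))
  split_ifs with hP
  · refine le_trans (card_biUnion_le_card_mul _ _ (2 * s * q ^ (s - 1))
      (fun i _ => le_trans (h2 i) (Nat.mul_le_mul_right _ hP.le))) (le_of_eq ?_)
    simp; ring
  · simp

lemma mem_badBlock {q s : ℕ} {P A B T' : Finset (Fin q)} {f : Fin s → Fin q}
    (_hAB : P = A ∆ B) (hT : Function.Injective f → T' = univ.image f)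
    (hlt : (P ∆ T').card < s) : f ∈ badBlock s P := by
  classical
  simp only [badBlock, mem_filter, mem_univ, true_and]
  by_cases hf : Function.Injective f
  · right
    rw [hT hf] at hlt
    have hT' : (univ.image f).card = s := by simp [card_image_of_injective _ hf]
    constructor
    · have : P.card ≤ (P ∆ univ.image f).card + (univ.image f).card :=
        le_trans (card_le_card (by
          intro x hx
          simp only [mem_symmDiff, mem_union]
          tauto)) (card_union_le _ _)
      omega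
    · by_contra h
      push Not at h
      have hd' : univ.image f ⊆ P ∆ univ.image f := by
        intro x hx
        obtain ⟨i, -, rfl⟩ := mem_image.1 hx
        simp only [mem_symmDiff]
        exact Or.inr ⟨hx, h i⟩
      have := card_le_card hd'
      omega
  · left
    simp only [Function.Injective, not_forall] at hf
    obtain ⟨i, j, h, hne⟩ := hf
    exact ⟨i, j, hne, h⟩

lemma flips_image {q s : ℕ} (f : Fin s → Fin q) (hf : Function.Injective f)
    (c : ℕ → Finset (Fin q)) (hc : ∀ i : Fin s, c (i + 1) = c i ∆ {f i}) :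
    c 0 ∆ c s = univ.image f := by
  classical
  have key : ∀ k ≤ s, c 0 ∆ c k = (univ.filter fun i : Fin s => i.1 < k).image f := by
    intro k
    induction k with
    | zero => intro _; simp [symmDiff_self]
    | succ k ih =>
      intro hk
      rw [hc ⟨k, by omega⟩, ← symmDiff_assoc, ih (by omega)]
      have hset : (univ.filter fun i : Fin s => i.1 < k + 1) =
          insert ⟨k, by omega⟩ (univ.filter fun i : Fin s => i.1 < k) := by
        ext i; simp [Fin.ext_iff]; omega
      rw [hset, image_insert]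
      have hnot : f ⟨k, by omega⟩ ∉ (univ.filter fun i : Fin s => i.1 < k).image f := by
        intro h
        obtain ⟨i, hi, he⟩ := mem_image.1 h
        have := hf he
        subst this
        simp at hi
      ext x
      simp only [mem_symmDiff, mem_singleton, mem_insert]
      constructor
      · rintro (⟨h, -⟩ | ⟨h, -⟩) <;> simp [h]
      · rintro (rfl | h)
        · exact Or.inr ⟨rfl, hnot⟩
        · exact Or.inl ⟨h, fun e => hnot (e ▸ h)⟩
  rw [key s le_rfl]
  congr 1
  ext i; simp

lemma card_block_event {α : Type*} [Fintype α] [DecidableEq α] {q t s : ℕ}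
    (e : Fin t × Fin s → α) (he : Function.Injective e)
    (B : Fin t → Finset (Fin s → Fin q)) :
    (univ.filter fun σ : α → Fin q => ∀ j, (fun i => σ (e (j, i))) ∈ B j).card * q ^ (t * s) ≤
      (∏ j, (B j).card) * Fintype.card (α → Fin q) := by
  classical
  set R : Finset α := univ.image e with hR
  have hRcard : R.card = t * s := by simp [hR, card_image_of_injective _ he]
  have h : (univ.filter fun σ : α → Fin q => ∀ j, (fun i => σ (e (j, i))) ∈ B j).card ≤
      (Fintype.piFinset B ×ˢ (univ : Finset ({a : α // a ∉ R} → Fin q))).card := by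
    refine card_le_card_of_injOn (fun σ => (fun j i => σ (e (j, i)), fun a => σ a.1)) ?_ ?_
    · intro σ hσ
      refine mem_coe.2 (mem_product.2 ⟨Fintype.mem_piFinset.2 ?_, mem_univ _⟩)
      exact (mem_filter.1 (mem_coe.1 hσ)).2
    · intro σ _ σ' _ h
      simp only [Prod.mk.injEq] at h
      funext a
      by_cases ha : a ∈ R
      · obtain ⟨⟨j, i⟩, -, rfl⟩ := mem_image.1 ha
        exact congrFun (congrFun h.1 j) i
      · exact congrFun h.2 ⟨a, ha⟩
  rw [card_product, Fintype.card_piFinset, card_univ] at h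
  have hcompl : Fintype.card ({a : α // a ∉ R} → Fin q) * q ^ (t * s) =
      Fintype.card (α → Fin q) := by
    simp only [Fintype.card_fun, Fintype.card_fin, ← pow_add]
    congr 1
    rw [Fintype.card_subtype_compl, Fintype.card_coe, hRcard]
    have : R.card ≤ Fintype.card α := card_le_univ _
    omega
  calc _ ≤ (∏ j, (B j).card) * Fintype.card ({a : α // a ∉ R} → Fin q) * q ^ (t * s) :=
        Nat.mul_le_mul_right _ h
    _ = _ := by rw [mul_assoc, hcompl]

lemma symm4 {q : ℕ} (A B a b : Finset (Fin q)) : (A ∆ B) ∆ (a ∆ b) = (A ∆ a) ∆ (B ∆ b) := by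
  ext x
  simp only [mem_symmDiff]
  tauto

lemma card_symm_le {q : ℕ} (X Y : Finset (Fin q)) : (X ∆ Y).card ≤ X.card + Y.card :=
  le_trans (card_le_card (by
    intro x hx; simp only [mem_symmDiff, mem_union] at hx ⊢; tauto)) (card_union_le _ _)

/-- The number of coordinates of the cube. -/
def qOf (D C K : ℕ) : ℕ := 2 * (((D + 1) * D * K) ^ (4 * C) * (3 * (4 * C) ^ 2))

/-- The lift of a graph by flips. -/
def lift {N q : ℕ} (G : SimpleGraph (Fin N)) (σ : Sym2 (Fin N) → Fin q) :
    SimpleGraph (Fin N × Finset (Fin q)) where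
  Adj x y := G.Adj x.1 y.1 ∧ y.2 = x.2 ∆ {σ s(x.1, y.1)}
  symm := ⟨fun x y ⟨h, e⟩ => ⟨h.symm, by
    rw [e, Sym2.eq_swap, symmDiff_assoc, symmDiff_self, symmDiff_bot]⟩⟩
  loopless := ⟨fun x h => G.irrefl h.1⟩

lemma deg_lift {N q : ℕ} (G : SimpleGraph (Fin N)) (σ : Sym2 (Fin N) → Fin q)
    (x : Fin N × Finset (Fin q)) : deg (lift G σ) x = deg G x.1 := by
  classical
  unfold deg
  refine card_bij (fun y _ => y.1) ?_ ?_ ?_
  · intro y hy
    exact mem_filter.2 ⟨mem_univ _, (mem_filter.1 hy).2.1⟩
  · intro y hy z hz h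
    have h1 := (mem_filter.1 hy).2.2
    have h2 := (mem_filter.1 hz).2.2
    exact Prod.ext h (by rw [h1, h2, h])
  · intro b hb
    exact ⟨(b, x.2 ∆ {σ s(x.1, b)}), mem_filter.2 ⟨mem_univ _, (mem_filter.1 hb).2, rfl⟩, rfl⟩

lemma hd_lift {N q : ℕ} (G : SimpleGraph (Fin N)) (σ : Sym2 (Fin N) → Fin q)
    {x y : Fin N × Finset (Fin q)} (h : (lift G σ).Adj x y) : hd x.2 y.2 = 1 := by
  obtain ⟨-, e⟩ := h
  simp [hd, e, -symmDiff_assoc]

/-- The walk determined by choices. -/
def follow {X : Type*} {g k : ℕ} (nx : X → Fin k → X) (x : X) (ch : Fin g → Fin k) : ℕ → X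
  | 0 => x
  | i + 1 => if h : i < g then nx (follow nx x ch i) (ch ⟨i, h⟩) else follow nx x ch i

/-- Matched long paths. -/
def Matched {V : Type*} {q m K : ℕ} (G : SimpleGraph V) (lab : V → Finset (Fin q)) (C g : ℕ)
    (tl : Fin m → Finset (Fin q)) (nb : Fin m → Fin K → Fin m) : Prop :=
  ∃ (p : ℕ → V) (w : ℕ → Fin m), (∀ i < g, G.Adj (p i) (p (i + 1))) ∧
    (∀ i, i + 2 ≤ g → p (i + 2) ≠ p i) ∧ (∀ i ≤ g, hd (tl (w i)) (lab (p i)) < 2 * C) ∧
    (∀ i < g, ∃ k, w (i + 1) = nb (w i) k)

theorem exists_avoiding (D C K m : ℕ) (hD : 1 ≤ D) (hC : 1 ≤ C) (hK : 1 ≤ K) :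
    ∃ (g N : ℕ) (G : SimpleGraph (Fin N × Finset (Fin (qOf D C K)))), 1 ≤ g ∧ 0 < N ∧
      (∀ x y, G.Adj x y → hd x.2 y.2 = 1) ∧ (∀ x, deg G x ≤ D) ∧
      Fintype.card (Fin N × Finset (Fin (qOf D C K))) * D ≤ 2 * ∑ x, deg G x ∧
      ∀ tl nb, ¬ Matched (m := m) (K := K) G Prod.snd C g tl nb := by
  classical
  set q := qOf D C K with hq
  set s := 4 * C with hs
  set Tem := (Fin m → Finset (Fin q)) × (Fin m → Fin K → Fin m) with hTem
  set t := 2 * (Fintype.card Tem * m) + 1 with ht
  set g := t * s with hgdef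
  have hs1 : 1 ≤ s := by omega
  have hg1 : 1 ≤ g := Nat.mul_pos (by omega) hs1
  set N := 2 * (D + 1) ^ g with hN
  obtain ⟨G0, hNS, hdeg, hsum⟩ := exists_noShort D g hg1
  have hnbr : ∀ x : Fin N, ∃ nx : Fin D → Fin N, ∀ y, G0.Adj x y → ∃ i, nx i = y := by
    intro x
    set Sx := (univ.filter fun y => G0.Adj x y) with hSx
    have hc : Sx.card ≤ D := le_trans (le_of_eq (by simp [deg, hSx])) (hdeg x)
    refine ⟨fun i => if h : i.1 < Sx.card then (Sx.equivFin.symm ⟨i, h⟩).1 else x, ?_⟩
    intro y hy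
    have hy' : y ∈ Sx := by simp [hSx, hy]
    have hlt := (Sx.equivFin ⟨y, hy'⟩).2
    exact ⟨⟨(Sx.equivFin ⟨y, hy'⟩).1, lt_of_lt_of_le hlt hc⟩, by simp [hlt]⟩
  choose nx hnx using hnbr
  set I := Tem × Fin N × (Fin g → Fin D) × Fin m × (Fin g → Fin K) with hI
  let P : I → ℕ → Fin N := fun z => follow nx z.2.1 z.2.2.1
  let W : I → ℕ → Fin m := fun z => follow z.1.2 z.2.2.2.1 z.2.2.2.2
  let E : I → Fin t × Fin s → Sym2 (Fin N) := fun z a =>
    s(P z (a.1 * s + a.2), P z (a.1 * s + a.2 + 1))
  let Bz : I → Fin t → Finset (Fin s → Fin q) := fun z j =>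
    badBlock s (z.1.1 (W z (j * s)) ∆ z.1.1 (W z (j * s + s)))
  let bad : I → Finset (Sym2 (Fin N) → Fin q) := fun z =>
    univ.filter fun σ => Function.Injective (E z) ∧ ∀ j, (fun i => σ (E z (j, i))) ∈ Bz z j
  have hbad : ∀ z, (bad z).card * q ^ t ≤
      (3 * s ^ 2) ^ t * Fintype.card (Sym2 (Fin N) → Fin q) := by
    intro z
    by_cases he : Function.Injective (E z)
    · have h1 := card_block_event (E z) he (Bz z)
      have h2 : ∏ j, (Bz z j).card ≤ (3 * s ^ 2 * q ^ (s - 1)) ^ t := by
        refine le_trans (prod_le_pow_card _ _ _ (fun j _ => badBlock_card s _)) ?_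
        simp
      have hq0 : 0 < q := by rw [hq, qOf]; positivity
      have h3 : (bad z).card * q ^ (t * s) ≤
          (3 * s ^ 2 * q ^ (s - 1)) ^ t * Fintype.card (Sym2 (Fin N) → Fin q) := by
        refine le_trans (Nat.mul_le_mul_right _ (card_le_card ?_))
          (le_trans h1 (Nat.mul_le_mul_right _ h2))
        intro σ hσ
        exact mem_filter.2 ⟨mem_univ _, (mem_filter.1 hσ).2.2⟩
      rw [mul_pow, ← pow_mul] at h3
      have h4 : (s - 1) * t + t = t * s := by
        obtain ⟨k, hk⟩ : ∃ k, s = k + 1 := ⟨s - 1, by omega⟩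
        rw [hk]; simp; ring
      rw [← h4, pow_add] at h3
      refine Nat.le_of_mul_le_mul_left ?_ (pow_pos hq0 ((s - 1) * t))
      linarith
    · have : bad z = ∅ := by simp [bad, he]
      simp [this]
  have hcount : ((univ : Finset I).biUnion bad).card < Fintype.card (Sym2 (Fin N) → Fin q) := by
    by_contra hge
    push Not at hge
    have hq0 : 0 < q := by rw [hq, qOf]; positivity
    have htot : ((univ : Finset I).biUnion bad).card * q ^ t ≤
        Fintype.card I * ((3 * s ^ 2) ^ t * Fintype.card (Sym2 (Fin N) → Fin q)) := by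
      refine le_trans (Nat.mul_le_mul_right _ card_biUnion_le) ?_
      rw [sum_mul]
      refine le_trans (sum_le_sum fun z _ => hbad z) ?_
      simp
    have hF : 0 < Fintype.card (Sym2 (Fin N) → Fin q) := by
      simp only [Fintype.card_fun, Fintype.card_fin]; exact pow_pos hq0 _
    have h5 : q ^ t ≤ Fintype.card I * (3 * s ^ 2) ^ t := by
      refine Nat.le_of_mul_le_mul_left ?_ hF
      have := le_trans (Nat.mul_le_mul_right _ hge) htot
      linarith
    have hIcard : Fintype.card I = 2 * (Fintype.card Tem * m) * (((D + 1) * D * K) ^ s) ^ t := by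
      rw [← pow_mul, show s * t = g by rw [hgdef]; ring, mul_pow, mul_pow]
      simp only [hI, Fintype.card_prod, Fintype.card_fun, Fintype.card_fin, hN]
      ring
    rw [hIcard, mul_assoc, ← mul_pow] at h5
    have hqb : q = 2 * (((D + 1) * D * K) ^ s * (3 * s ^ 2)) := rfl
    rw [show q ^ t = (2 * (((D + 1) * D * K) ^ s * (3 * s ^ 2))) ^ t from congrArg (· ^ t) hqb,
      mul_pow] at h5
    have hpos : 0 < (((D + 1) * D * K) ^ s * (3 * s ^ 2)) ^ t := by positivity
    have h6 := Nat.le_of_mul_le_mul_right h5 hpos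
    have h7 : t < 2 ^ t := Nat.lt_two_pow_self
    omega
  obtain ⟨σ, hσ⟩ : ∃ σ, σ ∉ (univ : Finset I).biUnion bad := by
    by_contra h
    push Not at h
    have : (univ : Finset I).biUnion bad = univ := eq_univ_iff_forall.2 h
    simp [this] at hcount
  refine ⟨g, N, lift G0 σ, hg1, by positivity, fun x y h => hd_lift G0 σ h,
    fun x => by rw [deg_lift]; exact hdeg x.1, ?_, ?_⟩
  · simp only [deg_lift, Fintype.sum_prod_type, sum_const, card_univ, smul_eq_mul,
      Fintype.card_prod, Fintype.card_fin, ← mul_sum]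
    have := Nat.mul_le_mul_left (Fintype.card (Finset (Fin q))) hsum
    exact le_trans (le_of_eq (show N * Fintype.card (Finset (Fin q)) * D =
      Fintype.card (Finset (Fin q)) * (N * D) by ring)) (le_trans this (le_of_eq (by ring)))
  rintro tl nb ⟨p, w, hadj, hnb, hcompat, hw⟩
  have hch : ∀ i : Fin g, ∃ c, nx (p i).1 c = (p (i + 1)).1 := fun i =>
    hnx _ _ (hadj i i.2).1
  choose ch hch using hch
  have hks : ∀ i : Fin g, ∃ k, w (i + 1) = nb (w i) k := fun i => hw i i.2
  choose ks hks using hks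
  let z : I := ((tl, nb), (p 0).1, ch, w 0, ks)
  have hP : ∀ i ≤ g, P z i = (p i).1 := by
    intro i
    induction i with
    | zero => intro _; rfl
    | succ i ih =>
      intro hi
      have hi' : i < g := by omega
      simp only [P, follow, hi', dite_true]
      have := ih hi'.le
      simp only [P] at this
      rw [this]
      exact hch ⟨i, hi'⟩
  have hW : ∀ i ≤ g, W z i = w i := by
    intro i
    induction i with
    | zero => intro _; rfl
    | succ i ih =>
      intro hi
      have hi' : i < g := by omega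
      simp only [W, follow, hi', dite_true]
      have := ih hi'.le
      simp only [W] at this
      rw [this]
      exact (hks ⟨i, hi'⟩).symm
  have hnb0 : ∀ i, i + 2 ≤ g → (p (i + 2)).1 ≠ (p i).1 := by
    intro i hi he
    apply hnb i hi
    refine Prod.ext he ?_
    rw [(hadj (i + 1) (by omega)).2, (hadj i (by omega)).2]
    have : s((p (i + 1)).1, (p (i + 1 + 1)).1) = s((p i).1, (p (i + 1)).1) := by
      rw [show i + 1 + 1 = i + 2 by ring, he, Sym2.eq_swap]
    rw [this, symmDiff_assoc, symmDiff_self]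
    simp
  have hinj := hNS g (fun i => (p i).1) le_rfl (fun i hi => (hadj i hi).1) hnb0
  have hidx : ∀ a : Fin t × Fin s, a.1.1 * s + a.2.1 < g := by
    intro a
    have h1 := a.1.2
    have h2 := a.2.2
    calc a.1.1 * s + a.2.1 < a.1.1 * s + s := by omega
      _ = (a.1.1 + 1) * s := by ring
      _ ≤ g := Nat.mul_le_mul_right _ h1
  have hEinj : Function.Injective (E z) := by
    intro a b hab
    have ha := hidx a
    have hb := hidx b
    simp only [E, Sym2.eq_iff] at hab
    rw [hP _ ha.le, hP _ ha, hP _ hb.le, hP _ hb] at hab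
    rcases hab with ⟨h1, -⟩ | ⟨h1, h2⟩
    · have h := hinj _ ha.le _ hb.le h1
      have hmod : a.2.1 = b.2.1 := by
        have := congrArg (· % s) h
        simpa [Nat.add_mod, Nat.mod_eq_of_lt a.2.2, Nat.mod_eq_of_lt b.2.2] using this
      have hdiv : a.1.1 = b.1.1 := by
        have h' : a.1.1 * s = b.1.1 * s := by omega
        exact Nat.eq_of_mul_eq_mul_right hs1 h'
      exact Prod.ext (Fin.ext hdiv) (Fin.ext hmod)
    · have h := hinj _ ha.le _ hb h1
      have h' := hinj _ ha _ hb.le h2
      omega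
  refine hσ (mem_biUnion.2 ⟨z, mem_univ _, mem_filter.2 ⟨mem_univ _, hEinj, fun j => ?_⟩⟩)
  have hjs : j.1 * s + s ≤ g := by
    calc j.1 * s + s = (j.1 + 1) * s := by ring
      _ ≤ g := Nat.mul_le_mul_right _ j.2
  set f : Fin s → Fin q := fun i => σ (E z (j, i)) with hf
  refine mem_badBlock (T' := (p (j.1 * s)).2 ∆ (p (j.1 * s + s)).2) rfl ?_ ?_
  · intro hfi
    refine flips_image f hfi (fun i => (p (j.1 * s + i)).2) (fun i => ?_)
    have hi : j.1 * s + i.1 < g := hidx (j, i)
    simp only [hf, E]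
    rw [hP _ hi.le, hP _ hi, ← (hadj _ hi).2]
    congr 2
  · rw [hW _ (by omega), hW _ hjs]
    set a := (p (j.1 * s)).2
    set b := (p (j.1 * s + s)).2
    set A := z.1.1 (w (j.1 * s))
    set B := z.1.1 (w (j.1 * s + s))
    have e : (A ∆ B) ∆ (a ∆ b) = (A ∆ a) ∆ (B ∆ b) := symm4 A B a b
    rw [e]
    have h1 : hd A a < 2 * C := hcompat _ (by omega)
    have h2 : hd B b < 2 * C := hcompat _ hjs
    have h3 := card_symm_le (A ∆ a) (B ∆ b)
    simp only [hd] at h1 h2
    omega

end Vale.Agent.P090
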