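import Mathlib

/-!
Orientation of matched states: if no long non-backtracking matched sequence exists, then every
state (x,v) is assigned to at most one neighbour, and every matched pair of states is assigned.
-/

namespace Vale.Agent.P090

open Finset

variable {V W : Type*} (A : V → V → Prop) (comp : V → W → Prop) (near : W → W → Prop)

/-- A matched non-backtracking sequence with n+1 steps, starting at state (x,v), first step to y. -/
def Long : ℕ → V → W → V → Prop
  | 0, x, v, y => A x y ∧ ∃ v', comp y v' ∧ near v v'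
  | n + 1, x, v, y => A x y ∧ ∃ v', comp y v' ∧ near v v' ∧ ∃ z, z ≠ x ∧ Long n y v' z

variable {A comp near}

lemma Long.adj {n : ℕ} {x : V} {v : W} {y : V} (h : Long A comp near n x v y) : A x y := by
  cases n <;> exact h.1

lemma Long.down {n : ℕ} : ∀ {x : V} {v : W} {y : V}, Long A comp near (n + 1) x v y →
    Long A comp near n x v y := by
  induction n with
  | zero =>
    intro x v y h
    obtain ⟨ha, v', hc, hn, -⟩ := h
    exact ⟨ha, v', hc, hn⟩
  | succ n ih =>
    intro x v y h
    obtain ⟨ha, v', hc, hn, z, hz, hL⟩ := h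
    exact ⟨ha, v', hc, hn, z, hz, ih hL⟩

lemma Long.mono {m n : ℕ} (hmn : m ≤ n) {x : V} {v : W} {y : V}
    (h : Long A comp near n x v y) : Long A comp near m x v y := by
  induction n, hmn using Nat.le_induction with
  | base => exact h
  | succ n _ ih => exact ih h.down

/-- Sequences witnessing `Long`. -/
lemma Long.seq {n : ℕ} : ∀ {x : V} {v : W} {y : V}, comp x v → Long A comp near n x v y →
    ∃ (p : ℕ → V) (w : ℕ → W), p 0 = x ∧ w 0 = v ∧ p 1 = y ∧
      (∀ i ≤ n, A (p i) (p (i + 1)) ∧ near (w i) (w (i + 1))) ∧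
      (∀ i ≤ n + 1, comp (p i) (w i)) ∧ (∀ i < n, p (i + 2) ≠ p i) := by
  induction n with
  | zero =>
    intro x v y hx h
    obtain ⟨ha, v', hc, hn⟩ := h
    refine ⟨fun i => if i = 0 then x else y, fun i => if i = 0 then v else v',
      by simp, by simp, by simp, ?_, ?_, ?_⟩
    · intro i hi
      obtain rfl : i = 0 := by omega
      simp [ha, hn]
    · intro i hi
      rcases i with _ | i
      · simpa using hx
      · simpa using hc
    · omega
  | succ n ih =>
    intro x v y hx h
    obtain ⟨ha, v', hc, hn, z, hz, hL⟩ := h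
    obtain ⟨p, w, hp0, hw0, hp1, hstep, hcomp, hnb⟩ := ih hc hL
    refine ⟨fun i => if i = 0 then x else p (i - 1), fun i => if i = 0 then v else w (i - 1),
      by simp, by simp, by simp [hp0], ?_, ?_, ?_⟩
    · intro i hi
      rcases i with _ | i
      · simp [hp0, hw0, ha, hn]
      · simpa using hstep i (by omega)
    · intro i hi
      rcases i with _ | i
      · simpa using hx
      · simpa using hcomp i (by omega)
    · intro i hi
      rcases i with _ | i
      · simpa [hp1] using hz
      · simpa using hnb i (by omega)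

variable (A comp near) in
/-- (x,v) is assigned to the neighbour y. -/
def Asg (x : V) (v : W) (y : V) : Prop :=
  comp x v ∧ ∃ n, Long A comp near n x v y ∧ ∀ z, z ≠ y → ¬ Long A comp near n x v z

lemma Asg.unique {x : V} {v : W} {y y' : V} (h : Asg A comp near x v y)
    (h' : Asg A comp near x v y') : y = y' := by
  obtain ⟨-, n, hn, hno⟩ := h
  obtain ⟨-, n', hn', hno'⟩ := h'
  by_contra hne
  rcases le_total n n' with hle | hle
  · exact hno y' (Ne.symm hne) (hn'.mono hle)
  · exact hno' y hne (hn.mono hle)

lemma asg_or_asg {g : ℕ} (hg : ∀ x v y, comp x v → ¬ Long A comp near g x v y)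
    (hA : ∀ x y, A x y → A y x) (hn : ∀ v v', near v v' → near v' v)
    {x y : V} {v v' : W} (hxy : A x y) (hx : comp x v) (hy : comp y v') (hv : near v v') :
    Asg A comp near x v y ∨ Asg A comp near y v' x := by
  classical
  have h0 : Long A comp near 0 x v y := ⟨hxy, v', hy, hv⟩
  have hex : ∃ n, ¬ Long A comp near n x v y := ⟨g, hg x v y hx⟩
  set N := Nat.find hex with hN
  have hNpos : N ≠ 0 := fun h => (Nat.find_spec hex) (by rw [← hN, h]; exact h0)
  have hlast : Long A comp near (N - 1) x v y := by
    by_contra hc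
    have := Nat.find_min' hex hc
    omega
  by_contra hcon
  push Not at hcon
  obtain ⟨h1, h2⟩ := hcon
  have : ∃ z, z ≠ y ∧ Long A comp near (N - 1) x v z := by
    by_contra hz
    push Not at hz
    exact h1 ⟨hx, N - 1, hlast, hz⟩
  obtain ⟨z, hzy, hz⟩ := this
  have h3 : Long A comp near N y v' x := by
    have : N = N - 1 + 1 := by omega
    rw [this]
    exact ⟨hA _ _ hxy, v, hx, hn _ _ hv, z, hzy, hz⟩
  have : ∃ w, w ≠ x ∧ Long A comp near N y v' w := by
    by_contra hz
    push Not at hz
    exact h2 ⟨hy, N, h3, hz⟩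
  obtain ⟨w, hwx, hw⟩ := this
  have h4 : Long A comp near (N + 1) x v y := ⟨hxy, v', hy, hv, w, hwx, hw⟩
  exact Nat.find_spec hex h4.down

end Vale.Agent.P090
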