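import Mathlib
import Vale.Agent.P090.Orientation
import Vale.Agent.P090.Girth

/-!
The analytic core: an approximate identity with finite support cannot be Lipschitz on a dense
bounded-degree graph without long matched paths.
-/

namespace Vale.Agent.P090

open Finset

section
variable {M : Type*} [MetricSpace M]

/-- States compatible with a vertex. -/
def Comp {V : Type*} (GS : Finset M) (anc : V → M) (C : ℝ) (x : V) (v : M) : Prop :=
  v ∈ GS ∧ dist v (anc x) < 2 * C

/-- Two points are near. -/
def Near (R : ℝ) (v v' : M) : Prop := dist v v' < R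

theorem core_contradiction {V : Type*} [Fintype V] [Nonempty V] (G : SimpleGraph V)
    (pos anc : V → M) (o : M) (GS : Finset M) (ho : o ∉ GS) (Φ : M → M → ℝ)
    {L R C : ℝ} {D g : ℕ} (hL : 1 ≤ L) (hR : 8 * L ≤ R)
    (hC : 4 * (2 * R + 1 + 2 * R * L + 1 + L) ≤ C)
    (hD : 8 * (4 * R * L + 4) < D)
    (hdisc : ∀ u v : M, u ≠ v → 1 ≤ dist u v)
    (hfar : ∀ x, 2 * C ≤ dist o (anc x))
    (hspoke : ∀ x, dist (pos x) (anc x) ≤ 2 * R)
    (hpos : ∀ x y, G.Adj x y → dist (pos x) (pos y) ≤ 1)
    (hanc : ∀ x y, G.Adj x y → dist (anc x) (anc y) ≤ 2 * R + 1)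
    (hsum : Fintype.card V * D ≤ 2 * ∑ x, deg G x)
    (h1 : ∀ (K : ℝ) (f : M → ℝ), 0 ≤ K → f o = 0 → (∀ u v, |f u - f v| ≤ K * dist u v) →
      ∀ u w, |∑ v ∈ GS, f v * (Φ u v - Φ w v)| ≤ K * L * dist u w)
    (h2 : ∀ (K : ℝ) (f : M → ℝ), 0 ≤ K → f o = 0 → (∀ u v, |f u - f v| ≤ K * dist u v) →
      ∀ x, |f (anc x) - ∑ v ∈ GS, f v * Φ (anc x) v| ≤ K)
    (hno : ∀ x v y, Comp GS anc C x v → ¬ Long G.Adj (Comp GS anc C) (Near R) g x v y) :
    False := by
  classical
  have hR0 : 0 < R := by linarith
  have hRL : 0 ≤ R * L := by positivity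
  have hC0 : 0 < C := by nlinarith
  set B : ℝ := 4 * R * L + 4 with hB
  -- total mass
  have hmass : ∀ x, ∑ v ∈ GS, |Φ (pos x) v| ≤ B := by
    intro x
    set f : M → ℝ := fun v => if v ∈ GS then (if 0 ≤ Φ (pos x) v then 1/2 else -(1/2)) else 0
      with hf
    have hfb : ∀ v, |f v| ≤ 1/2 := fun v => by
      simp only [hf]; split_ifs <;> norm_num
    have hfo : f o = 0 := by simp [hf, ho]
    have hflip : ∀ u v, |f u - f v| ≤ 1 * dist u v := by
      intro u v
      rcases eq_or_ne u v with rfl | hne
      · simp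
      · have := hdisc u v hne
        have := abs_sub (f u) (f v)
        have := hfb u
        have := hfb v
        linarith
    have e1 := h1 1 f zero_le_one hfo hflip (pos x) (anc x)
    have e2 := h2 1 f zero_le_one hfo hflip x
    have e3 := hfb (anc x)
    have e4 : ∑ v ∈ GS, f v * Φ (pos x) v = (1/2) * ∑ v ∈ GS, |Φ (pos x) v| := by
      rw [mul_sum]
      refine sum_congr rfl fun v hv => ?_
      simp only [hf, hv, if_true]
      split_ifs with h
      · rw [abs_of_nonneg h]
      · rw [abs_of_neg (not_le.1 h)]; ring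
    simp only [mul_sub, sum_sub_distrib] at e1
    rw [e4] at e1
    have hd : 1 * L * dist (pos x) (anc x) ≤ 2 * R * L := by
      have := mul_le_mul_of_nonneg_left (hspoke x) (by linarith : (0:ℝ) ≤ L)
      linarith
    rw [abs_le] at e1 e2 e3
    linarith [e1.1, e1.2, e2.1, e2.2, e3.1, e3.2]
  let U : V → V → ℝ := fun x y => ∑ v ∈ GS,
    if Asg G.Adj (Comp GS anc C) (Near R) x v y then |Φ (pos x) v| else 0
  -- every edge carries assigned mass
  have hedge : ∀ x y, G.Adj x y → 1/2 ≤ U x y + U y x := by
    intro x y hxy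
    set ψ : M → ℝ := fun v =>
      max 0 (min (1 - dist v (anc x) / (2 * C)) (1 - dist v (anc y) / (2 * C))) with hψ
    set Y : Set M := {v' | v' ∈ GS ∧ 0 < ψ v' ∧
      ¬ Asg G.Adj (Comp GS anc C) (Near R) y v' x} with hY
    set θ : M → ℝ := fun v => if Y.Nonempty then min 1 (Metric.infDist v Y / R) else 1 with hθ
    have hψcomp : ∀ v ∈ GS, 0 < ψ v → Comp GS anc C x v ∧ Comp GS anc C y v := by
      intro v hv h
      simp only [hψ, lt_max_iff, lt_irrefl, false_or, lt_min_iff, sub_pos,
        div_lt_one (by linarith : (0:ℝ) < 2 * C)] at h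
      exact ⟨⟨hv, h.1⟩, ⟨hv, h.2⟩⟩
    have hψ01 : ∀ v, 0 ≤ ψ v ∧ ψ v ≤ 1 := by
      intro v
      refine ⟨le_max_left _ _, max_le zero_le_one (le_trans (min_le_left _ _) ?_)⟩
      have : 0 ≤ dist v (anc x) / (2 * C) := by positivity
      linarith
    have hθ01 : ∀ v, 0 ≤ θ v ∧ θ v ≤ 1 := by
      intro v
      simp only [hθ]
      split_ifs
      · exact ⟨le_min zero_le_one (div_nonneg Metric.infDist_nonneg hR0.le), min_le_left _ _⟩
      · exact ⟨zero_le_one, le_rfl⟩
    have hθlip : ∀ u v, |θ u - θ v| ≤ 1 / R * dist u v := by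
      intro u v
      simp only [hθ]
      split_ifs
      · refine le_trans (abs_min_sub_min_le_max _ _ _ _) ?_
        simp only [sub_self, abs_zero]
        refine max_le (by positivity) ?_
        rw [← sub_div, abs_div, abs_of_pos hR0, one_div, inv_mul_eq_div]
        gcongr
        rw [abs_le]
        have a1 := Metric.infDist_le_infDist_add_dist (x := u) (y := v) (s := Y)
        have a2 := Metric.infDist_le_infDist_add_dist (x := v) (y := u) (s := Y)
        rw [dist_comm v u] at a2
        constructor <;> linarith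
      · simp only [sub_self, abs_zero]; positivity
    have hψlip : ∀ u v, |ψ u - ψ v| ≤ 1 / (2 * C) * dist u v := by
      intro u v
      have hd : ∀ a : M, |(1 - dist u a / (2*C)) - (1 - dist v a / (2*C))| ≤
          1 / (2 * C) * dist u v := by
        intro a
        rw [show (1 - dist u a / (2*C)) - (1 - dist v a / (2*C)) =
          (1 / (2 * C)) * (dist v a - dist u a) by ring, abs_mul,
          abs_of_pos (by positivity : (0:ℝ) < 1 / (2*C))]
        refine mul_le_mul_of_nonneg_left ?_ (by positivity)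
        rw [abs_le]
        have a1 := dist_triangle v u a
        have a2 := dist_triangle u v a
        rw [dist_comm v u] at a1
        constructor <;> linarith
      simp only [hψ]
      refine le_trans (abs_max_sub_max_le_max _ _ _ _) (max_le (by simp; positivity) ?_)
      exact le_trans (abs_min_sub_min_le_max _ _ _ _) (max_le (hd _) (hd _))
    set f : M → ℝ := fun v => ψ v * θ v with hf
    have hψo : ψ o = 0 := by
      simp only [hψ]
      refine max_eq_left (le_trans (min_le_left _ _) ?_)
      rw [sub_nonpos, one_le_div (by linarith)]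
      exact hfar x
    have hflip : ∀ u v, |f u - f v| ≤ (1 / (2*C) + 1 / R) * dist u v := by
      intro u v
      have e : f u - f v = (ψ u - ψ v) * θ u + ψ v * (θ u - θ v) := by simp only [hf]; ring
      rw [e]
      refine le_trans (abs_add_le _ _) ?_
      rw [abs_mul, abs_mul, abs_of_nonneg (hθ01 u).1, abs_of_nonneg (hψ01 v).1, add_mul]
      refine add_le_add ?_ ?_
      · exact le_trans (mul_le_of_le_one_right (abs_nonneg _) (hθ01 u).2) (hψlip u v)
      · exact le_trans (mul_le_of_le_one_left (abs_nonneg _) (hψ01 v).2) (hθlip u v)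
    have ef := h1 _ f (by positivity) (by simp [hf, hψo]) hflip (pos x) (pos y)
    have ea := h1 _ ψ (by positivity) hψo hψlip (pos x) (anc x)
    have eb := h2 _ ψ (by positivity) hψo hψlip x
    have hψa : 1 - (2 * R + 1) / (2 * C) ≤ ψ (anc x) := by
      refine le_trans ?_ (le_max_right _ _)
      refine le_min ?_ ?_
      · simp only [dist_self, zero_div, sub_zero]
        have : 0 ≤ (2 * R + 1) / (2 * C) := by positivity
        linarith
      · gcongr
        exact hanc x y hxy
    have hx' : ∑ v ∈ GS, ψ v * Φ (pos x) v - U x y ≤ ∑ v ∈ GS, f v * Φ (pos x) v := by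
      rw [← sum_sub_distrib]
      refine sum_le_sum fun v hv => ?_
      simp only [hf]
      rcases (hψ01 v).1.eq_or_lt with h0 | h0
      · rw [← h0]; split_ifs <;> simp
      split_ifs with hA
      · have : |ψ v * (1 - θ v) * Φ (pos x) v| ≤ |Φ (pos x) v| := by
          rw [abs_mul]
          refine mul_le_of_le_one_left (abs_nonneg _) ?_
          rw [abs_of_nonneg (mul_nonneg h0.le (by linarith [(hθ01 v).2]))]
          exact mul_le_one₀ (hψ01 v).2 (by linarith [(hθ01 v).2]) (by linarith [(hθ01 v).1])
        have e : ψ v * θ v * Φ (pos x) v = ψ v * Φ (pos x) v - ψ v * (1 - θ v) * Φ (pos x) v := by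
          ring
        rw [abs_le] at this
        linarith [this.2]
      · have hone : θ v = 1 := by
          simp only [hθ]
          split_ifs with hne
          · refine min_eq_left ((one_le_div hR0).2 ((Metric.le_infDist hne).2 ?_))
            intro v' hv'
            obtain ⟨hv'G, hv'ψ, hv'A⟩ := hv'
            by_contra hlt
            push Not at hlt
            rcases asg_or_asg hno (fun a b h => h.symm)
              (fun a b (h : Near R a b) => (show Near R b a from by
                unfold Near at *; rwa [dist_comm])) hxy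
              (hψcomp v hv h0).1 (hψcomp v' hv'G hv'ψ).2 hlt with hh | hh
            · exact hA hh
            · exact hv'A hh
          · rfl
        simp [hone]
    have hy' : ∑ v ∈ GS, f v * Φ (pos y) v ≤ U y x := by
      refine sum_le_sum fun v hv => ?_
      simp only [hf]
      split_ifs with hA
      · refine le_trans (le_abs_self _) ?_
        rw [abs_mul]
        refine mul_le_of_le_one_left (abs_nonneg _) ?_
        rw [abs_of_nonneg (mul_nonneg (hψ01 v).1 (hθ01 v).1)]
        exact mul_le_one₀ (hψ01 v).2 (hθ01 v).1 (hθ01 v).2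
      · rcases (hψ01 v).1.eq_or_lt with h0 | h0
        · simp [← h0]
        · have hmem : v ∈ Y := ⟨hv, h0, hA⟩
          have : θ v = 0 := by
            have hne : Y.Nonempty := ⟨v, hmem⟩
            simp [hθ, hne, Metric.infDist_zero_of_mem hmem]
          simp [this]
    simp only [mul_sub, sum_sub_distrib] at ef ea
    rw [abs_le] at ef ea eb
    have b1 : (2 * R + 1) / (2*C) + 1 / (2*C) * L * (2*R) + 1 / (2*C) + 1 / (2*C) * L ≤ 1/8 := by
      rw [show (2 * R + 1) / (2*C) + 1 / (2*C) * L * (2*R) + 1 / (2*C) + 1 / (2*C) * L =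
        (2 * R + 1 + 2 * R * L + 1 + L) / (2*C) by ring, div_le_iff₀ (by positivity)]
      linarith
    have b2 : 1 / R * L ≤ 1/8 := by
      rw [one_div, inv_mul_le_iff₀ hR0]; linarith
    have b3 : 1 / (2*C) * L * dist (pos x) (anc x) ≤ 1 / (2*C) * L * (2*R) :=
      mul_le_mul_of_nonneg_left (hspoke x) (by positivity)
    have b4 : (1 / (2*C) + 1 / R) * L * dist (pos x) (pos y) ≤ (1 / (2*C) + 1 / R) * L * 1 :=
      mul_le_mul_of_nonneg_left (hpos x y hxy) (by positivity)
    have b5 : (1 / (2*C) + 1 / R) * L * 1 = 1 / (2*C) * L + 1 / R * L := by ring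
    linarith [ea.1, eb.2, ef.2]
  -- count
  have hUle : ∀ x, ∑ y ∈ univ.filter (fun y => G.Adj x y), U x y ≤ B := by
    intro x
    simp only [U]
    rw [sum_comm]
    refine le_trans (sum_le_sum fun v _ => ?_) (hmass x)
    by_cases hex : ∃ y, G.Adj x y ∧ Asg G.Adj (Comp GS anc C) (Near R) x v y
    · obtain ⟨y, hy, hA⟩ := hex
      rw [sum_eq_single y]
      · simp [hA]
      · intro z _ hz
        rw [if_neg]
        exact fun hzA => hz (hzA.unique hA)
      · intro h; exact absurd (mem_filter.2 ⟨mem_univ _, hy⟩) h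
    · push Not at hex
      rw [sum_eq_zero]
      · exact abs_nonneg _
      · intro y hy; rw [if_neg (hex y (mem_filter.1 hy).2)]
  have hswap : ∑ x, ∑ y ∈ univ.filter (fun y => G.Adj x y), U y x =
      ∑ x, ∑ y ∈ univ.filter (fun y => G.Adj x y), U x y := by
    simp only [sum_filter]
    rw [sum_comm]
    simp only [G.adj_comm]
  have hlow : (1/2) * ((∑ x, deg G x : ℕ) : ℝ) ≤
      ∑ x, ∑ y ∈ univ.filter (fun y => G.Adj x y), (U x y + U y x) := by
    push_cast
    rw [mul_sum]
    refine sum_le_sum fun x _ => ?_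
    refine le_trans (le_of_eq ?_) (sum_le_sum (f := fun _ => (1/2:ℝ)) fun y hy =>
      hedge x y (mem_filter.1 hy).2)
    simp [deg, mul_comm]
  simp only [sum_add_distrib] at hlow
  rw [hswap] at hlow
  have hup : ∑ x, ∑ y ∈ univ.filter (fun y => G.Adj x y), U x y ≤ Fintype.card V * B := by
    refine le_trans (sum_le_sum fun x _ => hUle x) ?_
    simp
  have hs : (Fintype.card V : ℝ) * D ≤ 2 * ((∑ x, deg G x : ℕ) : ℝ) := by exact_mod_cast hsum
  have hN : (0:ℝ) < Fintype.card V := by exact_mod_cast Fintype.card_pos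
  nlinarith

end

end Vale.Agent.P090
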