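import Mathlib

/-!
Lipschitz-free spaces and the bounded approximation property.
-/

namespace Vale.Agent.P090

/-- The real Lipschitz functions vanishing at the base point. -/
def lipSubmodule (M : Type*) [MetricSpace M] (o : M) : Submodule ℝ (M → ℝ) where
  carrier := {f | f o = 0 ∧ ∃ C : ℝ, ∀ x y, |f x - f y| ≤ C * dist x y}
  zero_mem' := ⟨rfl, 0, fun x y => by simp⟩
  add_mem' := by
    rintro f g ⟨hf, C, hC⟩ ⟨hg, C', hC'⟩
    refine ⟨by simp [hf, hg], C + C', fun x y => ?_⟩
    have e : (f + g) x - (f + g) y = (f x - f y) + (g x - g y) := by simp; ring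
    rw [e, add_mul]
    exact le_trans (abs_add_le _ _) (add_le_add (hC x y) (hC' x y))
  smul_mem' := by
    rintro c f ⟨hf, C, hC⟩
    refine ⟨by simp [hf], |c| * C, fun x y => ?_⟩
    simp only [Pi.smul_apply, smul_eq_mul, ← mul_sub, abs_mul, mul_assoc]
    exact mul_le_mul_of_nonneg_left (hC x y) (abs_nonneg c)

/-- Lip₀(M): the Lipschitz functions vanishing at o, to be normed by the Lipschitz constant. -/
def Lip0 (M : Type*) [MetricSpace M] (o : M) : Type _ := lipSubmodule M o

variable {M : Type*} [MetricSpace M] {o : M}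

noncomputable instance : AddCommGroup (Lip0 M o) :=
  inferInstanceAs (AddCommGroup (lipSubmodule M o))

noncomputable instance : Module ℝ (Lip0 M o) :=
  inferInstanceAs (Module ℝ (lipSubmodule M o))

instance : CoeFun (Lip0 M o) (fun _ => M → ℝ) := ⟨fun f => f.1⟩

/-- The Lipschitz constant: the least nonnegative admissible constant. -/
noncomputable instance : Norm (Lip0 M o) :=
  ⟨fun f => sInf {C : ℝ | 0 ≤ C ∧ ∀ x y, |f.1 x - f.1 y| ≤ C * dist x y}⟩

lemma Lip0.norm_def (f : Lip0 M o) :
    ‖f‖ = sInf {C : ℝ | 0 ≤ C ∧ ∀ x y, |f.1 x - f.1 y| ≤ C * dist x y} := rfl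

lemma Lip0.norm_nonneg' (f : Lip0 M o) : 0 ≤ ‖f‖ :=
  Real.sInf_nonneg (fun _ h => h.1)

lemma Lip0.set_nonempty (f : Lip0 M o) :
    {C : ℝ | 0 ≤ C ∧ ∀ x y, |f.1 x - f.1 y| ≤ C * dist x y}.Nonempty := by
  obtain ⟨-, C, hC⟩ := f.2
  exact ⟨max C 0, le_max_right _ _, fun x y =>
    le_trans (hC x y) (mul_le_mul_of_nonneg_right (le_max_left _ _) dist_nonneg)⟩

lemma Lip0.le_norm (f : Lip0 M o) (x y : M) : |f.1 x - f.1 y| ≤ ‖f‖ * dist x y := by
  rcases eq_or_ne x y with rfl | h
  · simp
  · have hd : 0 < dist x y := dist_pos.2 h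
    rw [← div_le_iff₀ hd]
    exact le_csInf f.set_nonempty (fun C hC => (div_le_iff₀ hd).2 (hC.2 x y))

lemma Lip0.norm_le (f : Lip0 M o) {C : ℝ} (h0 : 0 ≤ C)
    (h : ∀ x y, |f.1 x - f.1 y| ≤ C * dist x y) : ‖f‖ ≤ C :=
  csInf_le ⟨0, fun _ hC => hC.1⟩ ⟨h0, h⟩

lemma Lip0.val_add (f g : Lip0 M o) : (f + g).1 = f.1 + g.1 := rfl

lemma Lip0.val_smul (c : ℝ) (f : Lip0 M o) : (c • f).1 = c • f.1 := rfl

lemma Lip0.core : NormedSpace.Core ℝ (Lip0 M o) where
  norm_nonneg := Lip0.norm_nonneg'
  norm_smul c f := by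
    refine le_antisymm ?_ ?_
    · refine Lip0.norm_le _ (mul_nonneg (norm_nonneg c) f.norm_nonneg') (fun x y => ?_)
      simp only [Lip0.val_smul, Pi.smul_apply, smul_eq_mul, ← mul_sub, abs_mul, Real.norm_eq_abs,
        mul_assoc]
      exact mul_le_mul_of_nonneg_left (f.le_norm x y) (abs_nonneg c)
    · rcases eq_or_ne c 0 with rfl | hc
      · simp [Lip0.norm_nonneg']
      · rw [mul_comm, ← le_div_iff₀ (norm_pos_iff.2 hc)]
        refine Lip0.norm_le _ (div_nonneg (Lip0.norm_nonneg' _) (norm_nonneg c)) (fun x y => ?_)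
        have := (c • f).le_norm x y
        simp only [Lip0.val_smul, Pi.smul_apply, smul_eq_mul, ← mul_sub, abs_mul] at this
        rw [div_mul_eq_mul_div, le_div_iff₀ (norm_pos_iff.2 hc), Real.norm_eq_abs]
        linarith
  norm_triangle f g := by
    refine Lip0.norm_le _ (add_nonneg f.norm_nonneg' g.norm_nonneg') (fun x y => ?_)
    simp only [Lip0.val_add, Pi.add_apply]
    rw [show f.1 x + g.1 x - (f.1 y + g.1 y) = (f.1 x - f.1 y) + (g.1 x - g.1 y) by ring, add_mul]
    exact le_trans (abs_add_le _ _) (add_le_add (f.le_norm x y) (g.le_norm x y))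
  norm_eq_zero_iff f := by
    constructor
    · intro h
      refine Subtype.ext (funext fun x => ?_)
      have := f.le_norm x o
      rw [h, f.2.1, zero_mul, sub_zero] at this
      exact abs_nonpos_iff.1 this
    · rintro rfl
      refine le_antisymm (Lip0.norm_le _ le_rfl (fun x y => ?_)) (Lip0.norm_nonneg' _)
      show |(0:ℝ) - 0| ≤ _
      simp

noncomputable instance : NormedAddCommGroup (Lip0 M o) := .ofCore Lip0.core

noncomputable instance : NormedSpace ℝ (Lip0 M o) := .ofCore Lip0.core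

noncomputable instance : NormedAddCommGroup (StrongDual ℝ (Lip0 M o)) := inferInstance

noncomputable instance : NormedSpace ℝ (StrongDual ℝ (Lip0 M o)) := inferInstance

/-- Evaluation at a point, as a functional on Lip₀(M). -/
noncomputable def delta (o x : M) : StrongDual ℝ (Lip0 M o) :=
  LinearMap.mkContinuous
    { toFun := fun f => f.1 x, map_add' := fun _ _ => rfl, map_smul' := fun _ _ => rfl }
    (dist x o) (fun f => by
      have := f.le_norm x o
      rw [f.2.1, sub_zero] at this
      show |f.1 x| ≤ _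
      simpa [mul_comm] using this)

lemma delta_apply (x : M) (f : Lip0 M o) : delta o x f = f.1 x := rfl

variable (M o) in
/-- The Lipschitz-free space: the closed linear span of the evaluations in Lip₀(M)*. -/
noncomputable abbrev LipFree : Submodule ℝ (StrongDual ℝ (Lip0 M o)) :=
  (Submodule.span ℝ (Set.range (delta o))).topologicalClosure

noncomputable instance : NormedAddCommGroup (LipFree M o) := inferInstance

noncomputable instance : NormedSpace ℝ (LipFree M o) := inferInstance

/-- The evaluation at x as an element of the free space. -/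
noncomputable def deltaF (o x : M) : LipFree M o :=
  ⟨delta o x, Submodule.le_topologicalClosure _ (Submodule.subset_span ⟨x, rfl⟩)⟩

lemma norm_deltaF_sub_le (x y : M) : ‖deltaF o x - deltaF o y‖ ≤ dist x y := by
  show ‖delta o x - delta o y‖ ≤ _
  refine ContinuousLinearMap.opNorm_le_bound _ dist_nonneg (fun f => ?_)
  simp only [sub_apply, delta_apply, Real.norm_eq_abs]
  rw [mul_comm]
  exact f.le_norm x y

/-- The bounded approximation property: for some λ, on every compact set the identity is uniformly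
approximated by finite-rank bounded operators of norm at most λ. -/
def HasBAP (X : Type*) [NormedAddCommGroup X] [NormedSpace ℝ X] : Prop :=
  ∃ lam : ℝ, ∀ K : Set X, IsCompact K → ∀ ε > (0 : ℝ),
    ∃ T : X →L[ℝ] X, FiniteDimensional ℝ (T : X →ₗ[ℝ] X).range ∧ ‖T‖ ≤ lam ∧
      ∀ u ∈ K, ‖T u - u‖ < ε

end Vale.Agent.P090
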