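import Mathlib
import Vale.Agent.P090.FreeSpace

/-!
A finite-rank operator on a free space, perturbed to have finitely supported range.
-/

namespace Vale.Agent.P090

open Finset

variable {M : Type*} [MetricSpace M] {o : M}

/-- Coordinate functionals of a finite-rank operator. -/
lemma exists_coords (T : LipFree M o →L[ℝ] LipFree M o)
    (hfin : FiniteDimensional ℝ (T : LipFree M o →ₗ[ℝ] LipFree M o).range) :
    ∃ (n : ℕ) (φ : Fin n → (LipFree M o →L[ℝ] ℝ)) (e : Fin n → LipFree M o),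
      ∀ z, T z = ∑ i, φ i z • e i := by
  have := hfin
  set W := (T : LipFree M o →ₗ[ℝ] LipFree M o).range
  let b := Module.finBasis ℝ W
  refine ⟨_, fun i => (LinearMap.toContinuousLinearMap (b.coord i)).comp
    (T.codRestrict W (fun x => ⟨x, rfl⟩)), fun i => (b i).1, fun z => ?_⟩
  have h := congrArg (fun w : W => w.1) (b.sum_repr ⟨T z, ⟨z, rfl⟩⟩)
  simp only [Submodule.coe_sum, Submodule.coe_smul] at h
  exact h.symm

lemma exists_combination (e : LipFree M o) {η : ℝ} (hη : 0 < η) :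
    ∃ c : M →₀ ℝ,
      ‖(e.1 : StrongDual ℝ (Lip0 M o)) - c.sum (fun v a => a • delta o v)‖ ≤ η := by
  have hmem : (e.1 : StrongDual ℝ (Lip0 M o)) ∈
      closure ((Submodule.span ℝ (Set.range (delta o)) :
        Submodule ℝ (StrongDual ℝ (Lip0 M o))) : Set (StrongDual ℝ (Lip0 M o))) := by
    have := e.2
    rwa [← SetLike.mem_coe, Submodule.topologicalClosure_coe] at this
  obtain ⟨z, hz, hd⟩ := Metric.mem_closure_iff.1 hmem η hη
  obtain ⟨c, rfl⟩ := Finsupp.mem_span_range_iff_exists_finsupp.1 hz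
  exact ⟨c, by rw [← dist_eq_norm]; exact hd.le⟩

theorem exists_kernel {ι : Type*} (anc : ι → M) {P L : ℝ} (hP : 0 ≤ P)
    (hanc : ∀ x, dist (anc x) o ≤ P) (T : LipFree M o →L[ℝ] LipFree M o)
    (hfin : FiniteDimensional ℝ (T : LipFree M o →ₗ[ℝ] LipFree M o).range) (hT : ‖T‖ ≤ L)
    (hTK : ∀ x, ‖T (deltaF o (anc x)) - deltaF o (anc x)‖ ≤ 1/2) :
    ∃ (GS : Finset M) (Φ : M → M → ℝ), o ∉ GS ∧
      (∀ (K : ℝ) (f : M → ℝ), 0 ≤ K → f o = 0 → (∀ u v, |f u - f v| ≤ K * dist u v) →
        ∀ u w, |∑ v ∈ GS, f v * (Φ u v - Φ w v)| ≤ K * (L + 1) * dist u w) ∧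
      (∀ (K : ℝ) (f : M → ℝ), 0 ≤ K → f o = 0 → (∀ u v, |f u - f v| ≤ K * dist u v) →
        ∀ x, |f (anc x) - ∑ v ∈ GS, f v * Φ (anc x) v| ≤ K) := by
  classical
  obtain ⟨n, φ, e, he⟩ := exists_coords T hfin
  set S : ℝ := ∑ i, ‖φ i‖ with hS
  have hS0 : 0 ≤ S := sum_nonneg fun i _ => ContinuousLinearMap.opNorm_nonneg _
  set η : ℝ := 1 / (2 * (P + 1) * (S + 1)) with hη
  have hη0 : 0 < η := by positivity
  choose c hc using fun i => exists_combination (e i) hη0
  set GS : Finset M := (univ.biUnion fun i => (c i).support).erase o with hGS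
  let A : LipFree M o → StrongDual ℝ (Lip0 M o) := fun z =>
    ∑ i, φ i z • (c i).sum (fun v a => a • delta o v)
  have hA : ∀ z, ‖((T z).1 : StrongDual ℝ (Lip0 M o)) - A z‖ ≤ 1 / (2 * (P + 1)) * ‖z‖ := by
    intro z
    have hTz : ((T z).1 : StrongDual ℝ (Lip0 M o)) = ∑ i, φ i z • (e i).1 := by
      rw [he z]
      simp only [Submodule.coe_sum, Submodule.coe_smul]
    rw [hTz]
    simp only [A, ← sum_sub_distrib, ← smul_sub]
    refine le_trans (norm_sum_le _ _) ?_
    refine le_trans (sum_le_sum fun i _ => (norm_smul_le (φ i z) _).trans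
      (mul_le_mul ((φ i).le_opNorm z) (hc i) (norm_nonneg _)
        (mul_nonneg (ContinuousLinearMap.opNorm_nonneg _) (norm_nonneg _)))) ?_
    rw [← sum_mul, ← sum_mul, ← hS]
    have : S * η ≤ 1 / (2 * (P + 1)) := by
      rw [hη, mul_one_div, div_le_div_iff₀ (by positivity) (by positivity)]
      nlinarith
    nlinarith [norm_nonneg z]
  have heval : ∀ (g : Lip0 M o) (u : M),
      A (deltaF o u) g = ∑ v ∈ GS, g.1 v * ∑ i, φ i (deltaF o u) * c i v := by
    intro g u
    simp only [A, FunLike.coe_sum, Finset.sum_apply, smul_apply, smul_eq_mul, mul_sum,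
      Finsupp.sum, delta_apply]
    rw [sum_comm (s := GS)]
    refine sum_congr rfl fun i _ => ?_
    rw [show (∑ v ∈ GS, g.1 v * (φ i (deltaF o u) * c i v)) =
      ∑ v ∈ (univ.biUnion fun i => (c i).support), g.1 v * (φ i (deltaF o u) * c i v) from ?_]
    · rw [← sum_subset (subset_biUnion_of_mem (fun i => (c i).support) (mem_univ i))]
      · exact sum_congr rfl fun v _ => by ring
      · intro v _ hv
        rw [Finsupp.notMem_support_iff.1 hv]; ring
    · rw [hGS, sum_erase]
      rw [g.2.1]; ring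
  have hAnorm : ∀ z, ‖A z‖ ≤ (L + 1) * ‖z‖ := by
    intro z
    have h1 := norm_le_norm_add_norm_sub' (A z) ((T z).1 : StrongDual ℝ (Lip0 M o))
    rw [norm_sub_rev] at h1
    have h2 : ‖((T z).1 : StrongDual ℝ (Lip0 M o))‖ ≤ L * ‖z‖ :=
      le_trans (T.le_opNorm z) (mul_le_mul_of_nonneg_right hT (norm_nonneg _))
    have h3 := hA z
    have h4 : 1 / (2 * (P + 1)) ≤ 1 := by
      rw [div_le_one (by positivity)]; linarith
    nlinarith [norm_nonneg z]
  refine ⟨GS, fun u v => ∑ i, φ i (deltaF o u) * c i v, by simp [hGS], ?_, ?_⟩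
  · intro C f hC hf0 hlip u w
    let g : Lip0 M o := ⟨f, hf0, C, hlip⟩
    have hg : ‖g‖ ≤ C := Lip0.norm_le g hC hlip
    have h : A (deltaF o u - deltaF o w) g = ∑ v ∈ GS, f v *
        ((∑ i, φ i (deltaF o u) * c i v) - ∑ i, φ i (deltaF o w) * c i v) := by
      have hsub : A (deltaF o u - deltaF o w) = A (deltaF o u) - A (deltaF o w) := by
        simp only [A, map_sub, sub_smul, sum_sub_distrib]
      rw [hsub, sub_apply, heval, heval, ← sum_sub_distrib]
      exact sum_congr rfl fun v _ => (mul_sub (f v) _ _).symm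
    rw [← h, ← Real.norm_eq_abs]
    refine le_trans ((A _).le_opNorm g) ?_
    have hL1 : 0 ≤ L + 1 := by linarith [(ContinuousLinearMap.opNorm_nonneg T).trans hT]
    refine le_trans (mul_le_mul (hAnorm _) hg (norm_nonneg g)
      (mul_nonneg hL1 (norm_nonneg _))) ?_
    have h2 := mul_le_mul_of_nonneg_left (norm_deltaF_sub_le (o := o) u w) (mul_nonneg hC hL1)
    linarith
  · intro C f hC hf0 hlip x
    let g : Lip0 M o := ⟨f, hf0, C, hlip⟩
    have hg : ‖g‖ ≤ C := Lip0.norm_le g hC hlip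
    set a : M := anc x
    have hval : f a - ∑ v ∈ GS, f v * (∑ i, φ i (deltaF o a) * c i v) =
        (((deltaF o a).1 : StrongDual ℝ (Lip0 M o)) - A (deltaF o a)) g := by
      rw [sub_apply, heval]
      rfl
    have hna : ‖deltaF o a‖ ≤ P := by
      have h := norm_deltaF_sub_le (o := o) a o
      have h0 : deltaF o o = (0 : LipFree M o) := by
        refine Subtype.ext (ContinuousLinearMap.ext fun g => ?_)
        exact g.2.1
      rw [h0, sub_zero] at h
      exact h.trans (hanc x)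
    have hnorm : ‖((deltaF o a).1 : StrongDual ℝ (Lip0 M o)) - A (deltaF o a)‖ ≤ 1 := by
      refine le_trans (norm_sub_le_norm_sub_add_norm_sub _ ((T (deltaF o a)).1) _) ?_
      have h1 : ‖((deltaF o a).1 : StrongDual ℝ (Lip0 M o)) - (T (deltaF o a)).1‖ ≤ 1/2 := by
        rw [norm_sub_rev]; exact hTK x
      have h2 := hA (deltaF o a)
      have h3 : 1 / (2 * (P + 1)) * ‖deltaF o a‖ ≤ 1/2 := by
        rw [one_div_mul_eq_div, div_le_iff₀ (by positivity)]
        linarith
      linarith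
    rw [hval, ← Real.norm_eq_abs]
    refine le_trans (ContinuousLinearMap.le_opNorm _ g) ?_
    calc _ ≤ 1 * C := mul_le_mul hnorm hg (norm_nonneg _) zero_le_one
      _ = C := one_mul C

end Vale.Agent.P090
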