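import Mathlib
import Vale.Agent.P090.Avoid
import Vale.Agent.P090.Orientation
import Vale.Agent.P090.Core

/-!
The uniformly discrete metric space: a bouquet over L of pieces, each made of a cube and
labelled sparse models.
-/

namespace Vale.Agent.P090

open Finset

/-- Parameters. -/
def RR (L : ℕ) : ℕ := 8 * (L + 1)
/-- Parameters. -/
def CC (L : ℕ) : ℕ := 4 * (2 * RR L + 1 + 2 * RR L * (L + 1) + 1 + (L + 1))
/-- Parameters. -/
def DD (L : ℕ) : ℕ := 8 * (4 * RR L * (L + 1) + 4) + 1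
/-- Parameters. -/
def KK (L : ℕ) : ℕ := (DD L + 1) ^ RR L
/-- Dimension of the cube in piece L. -/
def QQ (L : ℕ) : ℕ := qOf (DD L) (CC L) (KK L)
/-- Distance of piece L to the base point. -/
def PP (L : ℕ) : ℕ := 2 * CC L + 2 * RR L + QQ L

lemma avoid_exists (L k : ℕ) :
    ∃ (g N : ℕ) (G : SimpleGraph (Fin N × Finset (Fin (qOf (DD L) (CC L) (KK L))))), 1 ≤ g ∧ 0 < N ∧
      (∀ x y, G.Adj x y → hd x.2 y.2 = 1) ∧ (∀ x, deg G x ≤ DD L) ∧
      Fintype.card (Fin N × Finset (Fin (qOf (DD L) (CC L) (KK L)))) * DD L ≤ 2 * ∑ x, deg G x ∧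
      ∀ tl nb, ¬ Matched (m := k + 1) (K := KK L) G Prod.snd (CC L) g tl nb :=
  exists_avoiding (DD L) (CC L) (KK L) (k + 1) (by simp [DD]) (by unfold CC; omega)
    (Nat.one_le_pow _ _ (by omega))

/-- Length of forbidden paths in model k. -/
noncomputable def mg (L k : ℕ) : ℕ := (avoid_exists L k).choose
/-- Size of model k. -/
noncomputable def mN (L k : ℕ) : ℕ := (avoid_exists L k).choose_spec.choose
/-- Graph of model k. -/
noncomputable def mG (L k : ℕ) : SimpleGraph (Fin (mN L k) × Finset (Fin (QQ L))) :=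
  (avoid_exists L k).choose_spec.choose_spec.choose

lemma mG_spec (L k : ℕ) :
    1 ≤ mg L k ∧ 0 < mN L k ∧
      (∀ x y, (mG L k).Adj x y → hd x.2 y.2 = 1) ∧ (∀ x, deg (mG L k) x ≤ DD L) ∧
      Fintype.card (Fin (mN L k) × Finset (Fin (QQ L))) * DD L ≤ 2 * ∑ x, deg (mG L k) x ∧
      ∀ tl nb, ¬ Matched (m := k + 1) (K := KK L) (mG L k) Prod.snd (CC L) (mg L k) tl nb :=
  (avoid_exists L k).choose_spec.choose_spec.choose_spec

/-- Points of piece L. -/
abbrev Piece (L : ℕ) : Type :=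
  Finset (Fin (QQ L)) ⊕ (Σ k : ℕ, Fin (mN L k) × Finset (Fin (QQ L)))

/-- Label of a point. -/
def lab {L : ℕ} : Piece L → Finset (Fin (QQ L))
  | .inl c => c
  | .inr ⟨_, x⟩ => x.2

/-- The graph of all models of a piece. -/
def pg (L : ℕ) : SimpleGraph (Piece L) where
  Adj u v := ∃ k x y, u = Sum.inr ⟨k, x⟩ ∧ v = Sum.inr ⟨k, y⟩ ∧ (mG L k).Adj x y
  symm := ⟨fun _ _ ⟨k, x, y, h1, h2, h3⟩ => ⟨k, y, x, h2, h1, h3.symm⟩⟩
  loopless := ⟨fun u ⟨k, x, y, h1, h2, h3⟩ => by
    subst h1
    simp at h2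
    exact h3.ne h2⟩

lemma pg_hd {L : ℕ} {u v : Piece L} (w : (pg L).Walk u v) : hd (lab u) (lab v) ≤ w.length := by
  induction w with
  | nil => simp [hd_self]
  | @cons u' v' w' h p ih =>
    have h1 : hd (lab u') (lab v') = 1 := by
      obtain ⟨k, x, y, e1, e2, hxy⟩ := (show ∃ k x y,
        u' = Sum.inr ⟨k, x⟩ ∧ v' = Sum.inr ⟨k, y⟩ ∧ (mG L k).Adj x y from h)
      rw [e1, e2]
      exact (mG_spec L k).2.2.1 x y hxy
    refine le_trans (hd_triangle _ (lab v') _) ?_
    rw [SimpleGraph.Walk.length_cons]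
    omega

lemma hd_le_edist {L : ℕ} (u v : Piece L) : (hd (lab u) (lab v) : ℕ∞) ≤ (pg L).edist u v := by
  by_cases h : (pg L).edist u v = ⊤
  · simp [h]
  · obtain ⟨w, hw⟩ := SimpleGraph.exists_walk_of_edist_ne_top h
    rw [← hw]
    exact_mod_cast pg_hd w

/-- Distance inside a piece. -/
noncomputable def pd (L : ℕ) (u v : Piece L) : ℕ :=
  (min ((pg L).edist u v) ((2 * RR L + hd (lab u) (lab v) : ℕ) : ℕ∞)).toNat

lemma pd_coe (L : ℕ) (u v : Piece L) : (pd L u v : ℕ∞) =
    min ((pg L).edist u v) ((2 * RR L + hd (lab u) (lab v) : ℕ) : ℕ∞) :=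
  ENat.natCast_toNat (ne_top_of_le_ne_top (ENat.natCast_ne_top _) (min_le_right _ _))

lemma pd_self (L : ℕ) (u : Piece L) : pd L u u = 0 := by simp [pd]

lemma pd_pos {L : ℕ} {u v : Piece L} (h : u ≠ v) : 1 ≤ pd L u v := by
  have h1 : (1 : ℕ∞) ≤ (pd L u v : ℕ∞) := by
    rw [pd_coe]
    refine le_min (Order.one_le_iff_pos.2 (pos_iff_ne_zero.2 ?_)) ?_
    · exact fun h' => h (SimpleGraph.edist_eq_zero_iff.1 h')
    · have : 1 ≤ 2 * RR L + hd (lab u) (lab v) := by simp [RR]; omega
      exact_mod_cast this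
  exact_mod_cast h1

lemma pd_comm (L : ℕ) (u v : Piece L) : pd L u v = pd L v u := by
  rw [pd, pd, SimpleGraph.edist_comm, hd_comm]

lemma pd_le (L : ℕ) (u v : Piece L) : pd L u v ≤ 2 * RR L + hd (lab u) (lab v) := by
  have h : (pd L u v : ℕ∞) ≤ ((2 * RR L + hd (lab u) (lab v) : ℕ) : ℕ∞) := by
    rw [pd_coe]; exact min_le_right _ _
  exact_mod_cast h

lemma hd_le_pd (L : ℕ) (u v : Piece L) : hd (lab u) (lab v) ≤ pd L u v := by
  have h : (hd (lab u) (lab v) : ℕ∞) ≤ (pd L u v : ℕ∞) := by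
    rw [pd_coe]
    exact le_min (hd_le_edist u v) (by exact_mod_cast Nat.le_add_left _ _)
  exact_mod_cast h

lemma pd_triangle (L : ℕ) (u v w : Piece L) : pd L u w ≤ pd L u v + pd L v w := by
  rcases le_or_gt (2 * RR L + hd (lab u) (lab v)) (pd L u v) with h1 | h1
  · have := pd_le L u w
    have := hd_triangle (lab u) (lab v) (lab w)
    have := hd_le_pd L v w
    omega
  rcases le_or_gt (2 * RR L + hd (lab v) (lab w)) (pd L v w) with h2 | h2
  · have := pd_le L u w
    have := hd_triangle (lab u) (lab v) (lab w)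
    have := hd_le_pd L u v
    omega
  have e : ∀ a b : Piece L, pd L a b < 2 * RR L + hd (lab a) (lab b) →
      (pg L).edist a b = (pd L a b : ℕ∞) := by
    intro a b h
    rcases min_choice ((pg L).edist a b) ((2 * RR L + hd (lab a) (lab b) : ℕ) : ℕ∞) with hc | hc
    · rw [pd_coe, hc]
    · have := pd_coe L a b
      rw [hc] at this
      have := Nat.cast_inj.1 this
      omega
  have h3 : (pd L u w : ℕ∞) ≤ (pd L u v : ℕ∞) + (pd L v w : ℕ∞) := by
    rw [← e u v h1, ← e v w h2, pd_coe]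
    exact le_trans (min_le_left _ _) SimpleGraph.edist_triangle
  exact_mod_cast h3

/-- The space. -/
def Pt : Type := Option (Σ L : ℕ, Piece L)

/-- The base point. -/
def base : Pt := none

/-- The distance. -/
noncomputable def pdist : Pt → Pt → ℕ
  | none, none => 0
  | none, some ⟨L, _⟩ => PP L
  | some ⟨L, _⟩, none => PP L
  | some ⟨L, u⟩, some ⟨L', v⟩ => if h : L = L' then pd L' (h ▸ u) v else PP L + PP L'

lemma pd_le_two_PP (L : ℕ) (u v : Piece L) : pd L u v ≤ PP L + PP L := by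
  have := pd_le L u v
  have := hd_le (lab u) (lab v)
  simp only [PP]
  omega

lemma PP_pos (L : ℕ) : 1 ≤ PP L := by simp [PP, CC]; omega

lemma pdist_self : ∀ a : Pt, pdist a a = 0
  | none => rfl
  | some ⟨L, u⟩ => by simp [pdist, pd_self]

lemma pdist_comm : ∀ a b : Pt, pdist a b = pdist b a
  | none, none => rfl
  | none, some ⟨_, _⟩ => rfl
  | some ⟨_, _⟩, none => rfl
  | some ⟨L, u⟩, some ⟨L', v⟩ => by
    by_cases h : L = L'
    · subst h; simp [pdist, pd_comm]
    · simp [pdist, h, Ne.symm h, add_comm]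

lemma pdist_pos : ∀ a b : Pt, a ≠ b → 1 ≤ pdist a b
  | none, none, h => absurd rfl h
  | none, some ⟨L, _⟩, _ => PP_pos L
  | some ⟨L, _⟩, none, _ => PP_pos L
  | some ⟨L, u⟩, some ⟨L', v⟩, hne => by
    by_cases h : L = L'
    · subst h
      have : u ≠ v := fun e => hne (e ▸ rfl)
      simpa [pdist] using pd_pos this
    · have := PP_pos L
      simp [pdist, h]; omega

lemma pdist_triangle : ∀ a b c : Pt, pdist a c ≤ pdist a b + pdist b c
  | none, none, _ => by simp [pdist]
  | some ⟨_, _⟩, none, none => by simp [pdist]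
  | none, some ⟨_, _⟩, none => by simp [pdist]
  | some ⟨L, u⟩, none, some ⟨L', v⟩ => by
    by_cases h : L = L'
    · subst h; simpa [pdist] using pd_le_two_PP L u v
    · simp [pdist, h]
  | none, some ⟨L, u⟩, some ⟨L', v⟩ => by
    by_cases h : L = L'
    · subst h; simp [pdist]
    · simp [pdist, h]; omega
  | some ⟨L, u⟩, some ⟨L', v⟩, none => by
    by_cases h : L = L'
    · subst h; simp [pdist]
    · simp [pdist, h]; omega
  | some ⟨L, u⟩, some ⟨L', v⟩, some ⟨L'', w⟩ => by
    by_cases h : L = L'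
    · subst h
      by_cases h' : L = L''
      · subst h'; simpa [pdist] using pd_triangle L u v w
      · simp [pdist, h']
    · by_cases h' : L' = L''
      · subst h'; simp [pdist, h]
      · by_cases h'' : L = L''
        · subst h''
          have := pd_le_two_PP L u w
          simp [pdist, h, h']; omega
        · simp [pdist, h, h', h'']; omega

noncomputable instance : MetricSpace Pt where
  dist a b := (pdist a b : ℝ)
  dist_self a := by simp [pdist_self]
  dist_comm a b := by simp [pdist_comm]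
  dist_triangle a b c := by exact_mod_cast pdist_triangle a b c
  eq_of_dist_eq_zero {a b} h := by
    by_contra hne
    have := pdist_pos a b hne
    have h' : pdist a b = 0 := by exact_mod_cast h
    omega

lemma dist_def (a b : Pt) : dist a b = (pdist a b : ℝ) := rfl

lemma one_le_dist {a b : Pt} (h : a ≠ b) : 1 ≤ dist a b := by
  rw [dist_def]; exact_mod_cast pdist_pos a b h

/-- A point of piece L. -/
def pt (L : ℕ) (u : Piece L) : Pt := some ⟨L, u⟩

lemma pdist_pt (L : ℕ) (u v : Piece L) : pdist (pt L u) (pt L v) = pd L u v := by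
  simp [pdist, pt]

lemma eq_pt_of_close {L : ℕ} {v : Pt} {u : Piece L} (h : pdist v (pt L u) < PP L) :
    ∃ u', v = pt L u' := by
  rcases v with _ | ⟨L', u'⟩
  · simp [pdist, pt] at h
  · by_cases e : L' = L
    · subst e; exact ⟨u', rfl⟩
    · simp [pdist, pt, e] at h

/-- Label, defined on all points. -/
noncomputable def labAt (L : ℕ) (v : Pt) : Finset (Fin (QQ L)) := by
  classical exact if h : ∃ u, v = pt L u then lab h.choose else ∅

lemma pt_inj {L : ℕ} {u u' : Piece L} (h : pt L u = pt L u') : u = u' :=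
  eq_of_heq (Sigma.mk.inj_iff.1 (Option.some.inj h)).2

lemma labAt_pt (L : ℕ) (u : Piece L) : labAt L (pt L u) = lab u := by
  have h : ∃ u', pt L u = pt L u' := ⟨u, rfl⟩
  simp only [labAt, dif_pos h]
  rw [← pt_inj h.choose_spec]

lemma near_card {L : ℕ} (GS : Finset Pt) (u : Piece L) :
    (GS.filter fun v => pdist (pt L u) v < RR L).card ≤ KK L := by
  classical
  have hstay : ∀ {a b : Piece L} (w : (pg L).Walk a b), ∀ k x, a = Sum.inr ⟨k, x⟩ →
      ∀ n, w.length ≤ n → ∃ (y : Fin (mN L k) × Finset (Fin (QQ L))) (p : ℕ → Fin (mN L k) × Finset (Fin (QQ L))),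
        b = Sum.inr ⟨k, y⟩ ∧ p 0 = x ∧ p w.length = y ∧
        ∀ i < w.length, (mG L k).Adj (p i) (p (i + 1)) := by
    intro a b w
    induction w with
    | nil => intro k x e n _; exact ⟨x, fun _ => x, e, rfl, rfl, by simp⟩
    | @cons a' b' c' h p ih =>
      intro k x e n hn
      obtain ⟨k', x', y', e1, e2, hxy⟩ := (show ∃ k x y,
        a' = Sum.inr ⟨k, x⟩ ∧ b' = Sum.inr ⟨k, y⟩ ∧ (mG L k).Adj x y from h)
      obtain ⟨rfl, e3⟩ := Sigma.mk.inj_iff.1 (Sum.inr.inj (e1.symm.trans e))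
      obtain rfl := eq_of_heq e3
      obtain ⟨y, q, h1, h2, h3, h4⟩ := ih k' y' e2 _ le_rfl
      refine ⟨y, fun i => if i = 0 then x' else q (i - 1), h1, by simp,
        by rw [SimpleGraph.Walk.length_cons]; simpa using h3, ?_⟩
      intro i hi
      rw [SimpleGraph.Walk.length_cons] at hi
      rcases i with _ | i
      · simpa [h2] using hxy
      · simpa using h4 i (by omega)
  let S : Finset (Piece L) := match u with
    | .inl c => {Sum.inl c}
    | .inr ⟨k, x⟩ => (ball (mG L k) x (RR L)).image fun y => (Sum.inr ⟨k, y⟩ : Piece L)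
  have hS : S.card ≤ KK L := by
    rcases u with c | ⟨k, x⟩
    · simpa [S, KK] using Nat.one_le_pow _ _ (by omega)
    · refine le_trans card_image_le (ball_card _ (mG_spec L k).2.2.2.1 x _)
  refine le_trans (le_trans (card_le_card (t := S.image (pt L)) ?_) card_image_le) hS
  intro v hv
  have hv2 : pdist (pt L u) v < RR L := (mem_filter.1 hv).2
  obtain ⟨u', rfl⟩ := eq_pt_of_close (v := v) (u := u) (by
    rw [pdist_comm]; simp [PP] at *; omega)
  rw [pdist_pt] at hv2
  refine mem_image.2 ⟨u', ?_, rfl⟩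
  have he : (pg L).edist u u' < (RR L : ℕ∞) := by
    have h1 : ((pd L u u' : ℕ) : ℕ∞) < (RR L : ℕ∞) := by exact_mod_cast hv2
    rw [pd_coe] at h1
    rcases min_lt_iff.1 h1 with h | h
    · exact h
    · have : 2 * RR L + hd (lab u) (lab u') < RR L := by exact_mod_cast h
      omega
  obtain ⟨w, hw⟩ := SimpleGraph.exists_walk_of_edist_ne_top he.ne_top
  rw [← hw] at he
  have hlen : w.length < RR L := by exact_mod_cast he
  rcases u with c | ⟨k, x⟩
  · cases w with
    | nil => simp [S]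
    | cons h p =>
      obtain ⟨_, _, _, e, -⟩ := h
      exact absurd e Sum.inl_ne_inr
  · obtain ⟨y, p, rfl, h2, h3, h4⟩ := hstay w k x rfl _ le_rfl
    refine mem_image.2 ⟨y, ?_, rfl⟩
    have := mem_ball_of_seq (mG L k) p h4 (RR L) hlen.le
    rwa [h2, h3] at this

lemma no_long (L : ℕ) (GS : Finset Pt) (x : Fin (mN L GS.card) × Finset (Fin (QQ L))) (v : Pt)
    (y : Fin (mN L GS.card) × Finset (Fin (QQ L)))
    (hx : Comp GS (fun x => pt L (Sum.inl x.2)) (CC L : ℝ) x v) :
    ¬ Long (mG L GS.card).Adj (Comp GS (fun x => pt L (Sum.inl x.2)) (CC L : ℝ))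
      (Near (RR L : ℝ)) (mg L GS.card) x v y := by
  classical
  intro hlong
  obtain ⟨p, w, -, -, -, hstep, hcomp, hnb⟩ := Long.seq hx hlong
  have hclose : ∀ i ≤ mg L GS.card + 1, ∃ u, w i = pt L u ∧
      hd (lab u) (p i).2 < 2 * CC L := by
    intro i hi
    obtain ⟨-, hd'⟩ := hcomp i hi
    rw [dist_def] at hd'
    have h' : pdist (w i) (pt L (Sum.inl (p i).2)) < 2 * CC L := by exact_mod_cast hd'
    obtain ⟨u, hu⟩ := eq_pt_of_close (v := w i) (u := Sum.inl (p i).2) (by simp [PP] at *; omega)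
    refine ⟨u, hu, ?_⟩
    rw [hu, pdist_pt] at h'
    have := hd_le_pd L u (Sum.inl (p i).2)
    simp only [lab] at this ⊢
    omega
  let ptOf : Fin (GS.card + 1) → Pt := fun i => if h : i.1 < GS.card then (GS.equivFin.symm ⟨i.1, h⟩).1 else base
  let idx : Pt → Fin (GS.card + 1) := fun z => if h : z ∈ GS then (GS.equivFin ⟨z, h⟩).castSucc else 0
  have hidx : ∀ z ∈ GS, ptOf (idx z) = z := by
    intro z hz
    simp only [ptOf, idx, dif_pos hz]
    simp
  let nbset : Pt → Finset Pt := fun z => GS.filter fun v => pdist z v < RR L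
  let nb : Fin (GS.card + 1) → Fin (KK L) → Fin (GS.card + 1) := fun i j =>
    if h : j.1 < (nbset (ptOf i)).card then idx ((nbset (ptOf i)).equivFin.symm ⟨j.1, h⟩).1 else 0
  refine (mG_spec L GS.card).2.2.2.2.2 (fun i => labAt L (ptOf i)) nb
    ⟨p, fun i => idx (w i), fun i hi => (hstep i hi.le).1, fun i hi => hnb i (by omega), ?_, ?_⟩
  · intro i hi
    obtain ⟨u, hu, hlt⟩ := hclose i (by omega)
    change hd (labAt L (ptOf (idx (w i)))) (p i).2 < 2 * CC L
    rw [hidx _ (hcomp i (by omega)).1, hu, labAt_pt]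
    exact hlt
  · intro i hi
    obtain ⟨u, hu, -⟩ := hclose i (by omega)
    have hmem : w i ∈ GS := (hcomp i (by omega)).1
    have hn := (hstep i hi.le).2
    unfold Near at hn
    rw [dist_def] at hn
    have hn' : pdist (w i) (w (i + 1)) < RR L := by exact_mod_cast hn
    have hset : w (i + 1) ∈ nbset (w i) :=
      mem_filter.2 ⟨(hcomp (i + 1) (by omega)).1, hn'⟩
    have hcard : (nbset (w i)).card ≤ KK L := by rw [hu]; exact near_card GS u
    set j := (nbset (w i)).equivFin ⟨_, hset⟩ with hj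
    refine ⟨⟨j.1, lt_of_lt_of_le j.2 hcard⟩, ?_⟩
    simp only [nb]
    have key : ∀ z, z = w i → idx (w (i + 1)) = (if h : j.1 < (nbset z).card then
        idx ((nbset z).equivFin.symm ⟨j.1, h⟩).1 else 0) := by
      rintro z rfl
      rw [dif_pos j.2, hj]
      simp
    exact key _ (hidx _ hmem)

end Vale.Agent.P090
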